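import Vale.Agent.P366K.Defs
import Vale.Agent.P366MM.Mm
import Vale.Agent.P366M.End4

/-!
# P366K3: conformal variations and the identity of the multipliers
-/

set_option linter.all false

open MeasureTheory Filter Topology Set
open scoped ContDiff
open Vale.Agent.P366 Vale.Agent.P366M Vale.Agent.P366K
open Vale.Agent.P366.Stmt (E Field BigO flx omega)
open Vale.Agent.P366MM (sq_smul)

noncomputable section

namespace Vale.Agent.P366K3

variable {n : ℕ} {M : Type} [Mfe n M] {D : Exterior n M} {u : M → ℝ} {h k : Fld n M}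
  {ε dE l : ℝ} {dP : Fin n → ℝ}

/-- the conformal variation of the metric -/
def cH (D : Exterior n M) (u : M → ℝ) : Fld n M := fun x i j => 2 * u x * D.g x i j

/-- the conformal variation of `K` -/
def cK (D : Exterior n M) (u : M → ℝ) : Fld n M := fun x i j => u x * D.K x i j

theorem symK (D : Exterior n M) : Sym D.K := ⟨D.smK, D.syK⟩

theorem Sym.smul (hh : Sym h) (hu : Smooth u) : Sym fun x i j => u x * h x i j :=
  ⟨hh.sm.smul hu, fun x i j => by rw [hh.sy x i j]⟩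

theorem sym_cH (hu : Smooth u) : Sym (cH D u) :=
  Sym.smul (u := fun x => 2 * u x) ⟨D.met.sm, D.met.sy⟩ (CD.mul cd_const hu)

theorem sym_cK (hu : Smooth u) : Sym (cK D u) := Sym.smul (symK D) hu

theorem sym_zero : Sym (fun _ _ _ => 0 : Fld n M) := ⟨smT_zero, fun _ _ _ => rfl⟩

theorem Sym.sy' (hh : Sym h) {e : Ch n M} (he : e ∈ At M) : P366Y.C.Sy (rep e h) :=
  ⟨hh.sm e he, rep_sy hh.sy e⟩

/-- `K (X, grad u)` -/
def kx (D : Exterior n M) (X : Fin n → M → ℝ) (u : M → ℝ) (x : M) : ℝ :=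
  ∑ j, X j x * ∑ a, D.K x j a * gr D.g u a x

theorem cf (hC : C.CONF) (hR : REP) (hu : Smooth u) (x : M) :
    dmu D.g D.K (cH D u) (cK D u) x = -2 * u x * mu D.g D.K x - (n - 1) * lap D.g u x ∧
    (∀ j, dmo D.g D.K (cH D u) (cK D u) j x =
      -2 * u x * mom D.g D.K j x + (n - 1) * ∑ a, D.K x j a * gr D.g u a x) ∧
    ((∃ i, pd i D.F x ≠ 0) → dth D.g D.K D.F (cH D u) (cK D u) x =
      (n - 1) * ∑ a, nrm D.g D.F a x * pd a u x - u x * thetaPlus D.g D.K D.F x) := by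
  have he := ch_mem x
  obtain ⟨h1, h2, h3⟩ := (hR n M D.g D.K _ _ D.F D.met (symK D) (sym_cH hu) (sym_cK hu)
    D.dom.1).1 _ he (pt x)
  obtain ⟨c1, c2, c3⟩ := hC n _ _ (loc (ch x) u) (pt x) (D.met.rep he) (Sym.sy' (symK D) he) (hu _ he)
  have e1 : rep (ch x) (cH D u) = fun y i j => 2 * loc (ch x) u y * rep (ch x) D.g y i j :=
    rep_smul (ch x) (fun x => 2 * u x) D.g
  have e2 : rep (ch x) (cK D u) = fun y i j => loc (ch x) u y * rep (ch x) D.K y i j :=
    rep_smul (ch x) u D.K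
  rw [e1, e2] at h1 h2 h3
  simp only [c2] at h2
  simp only [c1, symm_pt, repC_pt, loc_pt, mu_pt, rep_pt, gr_pt] at h1 h2 h3
  refine ⟨h1, h2, fun k => (h3 k).trans ?_⟩
  rw [c3 _ (D.dom.1.c2 x) k]
  simp only [nrm_pt, loc_pt, thetaPlus_pt]
  rfl

theorem cf_ar {x : M} {e : Fin n → ℝ} (he : P366MM.sq D.g x e = 1) :
    ar D.g (cH D u) x e = (n - 1) * u x := by
  have a : ∀ i, ∑ j, up D.g i j x * D.g x i j = 1 := fun i => by
    simpa only [D.met.sy x i, if_true] using D.met.up_mul i i x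
  simp only [P366MM.sq, mul_assoc] at he
  simp only [ar, tr, cH, mul_left_comm _ (2 * u x), mul_assoc (2 * u x), mul_assoc (D.g x _ _),
    ← Finset.mul_sum, a, he, Finset.sum_const, Finset.card_univ, Fintype.card_fin, nsmul_eq_mul]
  ring

theorem ex_unit {g : Fld n M} (hg : Met g) (hn : 0 < n) (x : M) (ξ : Fin n → ℝ) :
    ∃ e, P366MM.sq g x e = 1 ∧ ∑ j, ξ j * e j = √(∑ i, ∑ j, up g i j x * ξ i * ξ j) := by
  have a : ∀ ξ : Fin n → ℝ, ξ ≠ 0 →
      ∃ e, P366MM.sq g x e = 1 ∧ ∑ j, ξ j * e j = √(∑ i, ∑ j, up g i j x * ξ i * ξ j) := fun ξ h0 => by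
    have p := hg.up_pos x h0
    have b : ∑ j, ξ j * ∑ l, up g j l x * ξ l = ∑ i, ∑ j, up g i j x * ξ i * ξ j :=
      Finset.sum_congr rfl fun i _ => by
        rw [Finset.mul_sum]; exact Finset.sum_congr rfl fun j _ => by ring
    have c : P366MM.sq g x (fun j => ∑ l, up g j l x * ξ l) = ∑ i, ∑ j, up g i j x * ξ i * ξ j := by
      rw [← b]
      refine Finset.sum_congr rfl fun i _ => ?_
      rw [← hg.g_up_mul x i ξ, Finset.sum_mul]
      exact Finset.sum_congr rfl fun j _ => by ring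
    generalize ∑ i, ∑ j, up g i j x * ξ i * ξ j = s at *
    refine ⟨fun j => (√s)⁻¹ * ∑ l, up g j l x * ξ l, ?_, ?_⟩
    · rw [sq_smul, c, inv_pow, Real.sq_sqrt p.le, inv_mul_cancel₀ p.ne']
    · simp only [mul_left_comm _ (√s)⁻¹, ← Finset.mul_sum, b]
      rw [inv_mul_eq_div, Real.div_sqrt]
  rcases eq_or_ne ξ 0 with rfl | h0
  · obtain ⟨e, h1, -⟩ := a (fun _ => 1) fun k => one_ne_zero (congrFun k ⟨0, hn⟩)
    exact ⟨e, h1, by simp⟩
  · exact a ξ h0

theorem wt_pos (ε : ℝ) (x : M) : 0 < wt ε x := Real.rpow_pos_of_pos (by positivity) _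

theorem cont_wt (ε : ℝ) : Continuous (wt ε : M → ℝ) :=
  (continuous_const.add (cont_npx.pow 2)).rpow_const fun x =>
    .inl (show (1 + ‖px x‖ ^ 2 : ℝ) ≠ 0 by positivity)

/-- the weighted variation is bounded -/
theorem var_bd (hR : REP) (hn : 0 < n) (V : Var D ε h k dE dP l) : ∃ C, ∀ x, 0 ≤ D.F x →
    wt ε x * |dmu D.g D.K h k x| ≤ C ∧ wt ε x * covNorm D.g (dmo D.g D.K h k) x ≤ C := by
  obtain ⟨-, s1, s2, -⟩ := hR n M D.g D.K _ _ D.F D.met (symK D) V.sh V.sk D.dom.1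
  obtain ⟨R, f⟩ := V.lim 1 one_pos
  obtain ⟨C, -, c⟩ := bdd_of_out (F := fun x => (wt ε x * |dmu D.g D.K h k x|,
    wt ε x * covNorm D.g (dmo D.g D.K h k) x)) (((cont_wt ε).mul s1.cont.abs).prodMk
      ((cont_wt ε).mul (D.met.cont_covNorm (s2.of_le (by simp))))) (R := R + 1) (C := |l| + 1)
      fun x hx => by
    obtain ⟨e, e1, e2⟩ := ex_unit D.met hn x fun j => dmo D.g D.K h k j x
    have a := abs_le.1 (f x (by linarith) e e1)
    have b := abs_le.1 (f x (by linarith) (fun i => -1 * e i) (by rw [sq_smul, e1]; simp))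
    have p := wt_pos ε x
    simp only [lin, neg_mul, one_mul, mul_neg, Finset.sum_neg_distrib, e2, mul_add] at a b
    refine norm_prod_le_iff.2 ⟨?_, ?_⟩
    · rw [Real.norm_of_nonneg (by positivity), ← abs_of_pos p, ← abs_mul, abs_le]
      constructor <;> linarith [le_abs_self l, neg_abs_le l]
    · rw [Real.norm_of_nonneg (by unfold covNorm; positivity), covNorm]
      linarith [abs_nonneg l]
  exact ⟨C, fun x _ => ⟨(le_abs_self _).trans (norm_prod_le_iff.1 (c x)).1,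
    (le_abs_self _).trans (norm_prod_le_iff.1 (c x)).2⟩⟩

theorem fam_ev (g : Fld n M) {x : M} (e : h =ᶠ[𝓝 x] fun _ _ _ => 0) (t : ℝ) :
    fam g h t =ᶠ[𝓝 x] g := e.mono fun y m => by funext i j; simp [fam, m]

/-- the variations vanish where `h` and `k` vanish -/
theorem var_zero {x : M} (e1 : h =ᶠ[𝓝 x] fun _ _ _ => 0) (e2 : k =ᶠ[𝓝 x] fun _ _ _ => 0) :
    dmu D.g D.K h k x = 0 ∧ (∀ j, dmo D.g D.K h k j x = 0) ∧ dth D.g D.K D.F h k x = 0 ∧
      ∀ e, ar D.g h x e = 0 := by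
  have a := fun t => (fam_ev D.g e1 t).eq_of_nhds
  have b := fun t => (fam_ev D.K e2 t).eq_of_nhds
  refine ⟨?_, fun j => ?_, ?_, fun e => by simp [ar, tr, e1.eq_of_nhds]⟩
  · simp [dmu, mu_of_ev (fam_ev D.g e1 _) (b _)]
  · simp [dmo, mom_of_ev (fam_ev D.g e1 _) (fam_ev D.K e2 _), e1.eq_of_nhds]
  · simp only [dth, thetaPlus, trS, tr, nrm, covNorm, hess_of_ev (fam_ev D.g e1 _),
      up_of_eq (a _), b, deriv_const]

theorem ev_zero {R : ℝ} (z : ∀ x : M, R ≤ ‖px x‖ → h x = fun _ _ => 0) {x : M} (hx : R < ‖px x‖) :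
    h =ᶠ[𝓝 x] fun _ _ _ => 0 := (ev_lt_px hx).mono fun y m => z y m.le

theorem flx_zero {W : Fin n → E n → ℝ} {R : ℝ} (z : ∀ y, R < ‖y‖ → ∀ i, W i y = 0) :
    Tendsto (flx W) atTop (𝓝 0) := by
  refine tendsto_const_nhds.congr' ((eventually_gt_atTop (max R 0)).mono fun r hr => ?_)
  have : ∀ θ : Metric.sphere (0 : E n) 1, ∀ i, W i (r • (θ : E n)) = 0 := fun θ => z _ (by
    rw [norm_smul, mem_sphere_zero_iff_norm.1 θ.2, mul_one]
    exact ((le_max_left _ _).trans_lt hr).trans_le (le_abs_self r))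
  simp [flx, Stmt.sphInt, Stmt.sph, this]

/-- variations with compact support -/
theorem var_cpt (sh : Sym h) (sk : Sym k) {R : ℝ}
    (z : ∀ x : M, R ≤ ‖px x‖ → (h x = fun _ _ => 0) ∧ k x = fun _ _ => 0) (ε : ℝ) :
    Var D ε h k 0 0 0 := by
  have a : ∀ {T : Fld n M}, (∀ x : M, R ≤ ‖px x‖ → T x = fun _ _ => 0) → ∀ y : E n,
      max R (R0 M) < ‖y‖ → ∀ i j, (fun z => fe T z i j) =ᶠ[𝓝 y] fun _ => 0 := fun t y hy i j =>
    (ev_lt_norm hy).mono fun w m => by
      have := t (yp w) (by rw [px_yp (by linarith [le_max_right R (R0 M)])]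
                           exact (le_max_left _ _).trans m.le)
      simp only [fe, this]
  have b : ∀ {f : E n → ℝ} {y : E n}, (f =ᶠ[𝓝 y] fun _ => 0) → ∀ i, Stmt.pd i f =ᶠ[𝓝 y] fun _ => 0 :=
    fun m i => (P366Z.pd_congr_ev m i).trans (.of_forall (P366Z.pd_const 0 i))
  have c : ∀ {f : E n → ℝ} {q : ℝ}, (∀ y, max R (R0 M) < ‖y‖ → f =ᶠ[𝓝 y] fun _ => 0) → BigO q f :=
    fun m => ⟨0, max R (R0 M), fun y hy => by simp [(m y hy).eq_of_nhds]⟩
  have h1 := a fun x m => (z x m).1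
  have h2 := a fun x m => (z x m).2
  refine ⟨⟨sh, sk, fun i j a' b' => ⟨c (h1 · · i j), c fun y m => b (h1 y m i j) _,
    c fun y m => b (b (h1 y m i j) _) _, c (h2 · · i j), c fun y m => b (h2 y m i j) _⟩,
    flx_zero (R := max R (R0 M)) fun y m i => by simp [fun i j l => (b (h1 y m i j) l).eq_of_nhds],
    fun i => flx_zero (R := max R (R0 M)) fun y m j => by simp [fun i j => (h2 y m i j).eq_of_nhds]⟩,
    fun δ p => ⟨R, fun x m e _ => ?_⟩⟩
  obtain ⟨k1, k2, -⟩ := var_zero (D := D) (ev_zero (fun x m => (z x m).1) m)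
    (ev_zero (fun x m => (z x m).2) m)
  simp [lin, k1, k2, p.le]

theorem var_cf (hu : Smooth u) {R : ℝ} (z : ∀ x : M, R ≤ ‖px x‖ → u x = 0) (ε : ℝ) :
    Var D ε (cH D u) (cK D u) 0 0 0 :=
  var_cpt (sym_cH hu) (sym_cK hu) (R := R)
    (fun x m => ⟨by funext i j; simp [cH, z x m], by funext i j; simp [cK, z x m]⟩) ε

variable {m κ R1 R2 c l' : ℝ} {P : Fin n → ℝ} {Z X : Fin n → M → ℝ} {W : Type} [MeasurableSpace W]
  {π : W → M} {ν : W → Fin n → ℝ} {α β : Measure W} {η : Measure M} {N : M → ℝ}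

/-- the identity of the multipliers in terms of `N` and `X` -/
theorem id_NX (hR : REP) (hn : 0 < n) (H : Mm D m P κ R1 R2 ε Z π ν α β η c l)
    (G : Rp D ε π ν α N X) (V : Var D ε h k dE dP l') :
    IntegrableOn (fun x => (N x * dmu D.g D.K h k x + ∑ j, X j x * dmo D.g D.K h k j x) * dens D.g x)
      {x | 0 ≤ D.F x} ∧
    (∫ x in {x | 0 ≤ D.F x}, (N x * dmu D.g D.K h k x + ∑ j, X j x * dmo D.g D.K h k j x) *
      dens D.g x) + l * l' - ∫ x, dth D.g D.K D.F h k x ∂η + ∫ w, ar D.g h (π w) (ν w) ∂β =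
        c * dm m P dE dP := by
  obtain ⟨-, s1, s2, -⟩ := hR n M D.g D.K _ _ D.F D.met (symK D) V.sh V.sk D.dom.1
  obtain ⟨a, b⟩ := G.rep _ _ s1.cont (s2.of_le (by simp)) (var_bd hR hn V)
  exact ⟨a, b ▸ H.id h k dE dP l' V⟩

/-- **the conformal identity** -/
theorem id_cf (hC : C.CONF) (hR : REP) (hn : 2 ≤ n)
    (mar : ∀ x, D.F x = 0 → thetaPlus D.g D.K D.F x = 0) (H : Mm D m P κ R1 R2 ε Z π ν α β η c l)
    (G : Rp D ε π ν α N X) (hu : Smooth u) (V : Var D ε (cH D u) (cK D u) dE dP l') :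
    IntegrableOn (fun x => (N x * lap D.g u x - kx D X u x) * dens D.g x) {x | 0 ≤ D.F x} ∧
    (n - 1) * (∫ w, u (π w) ∂β - ∫ x, ∑ a, nrm D.g D.F a x * pd a u x ∂η -
      ∫ x in {x | 0 ≤ D.F x}, (N x * lap D.g u x - kx D X u x) * dens D.g x) + l * l' =
        c * dm m P dE dP := by
  obtain ⟨a, b⟩ := id_NX hR (by omega) H G V
  have n1 : (n - 1 : ℝ) ≠ 0 := by
    have : (2 : ℝ) ≤ n := by exact_mod_cast hn
    linarith
  have ms : MeasurableSet {x | 0 ≤ D.F x} := (isClosed_le continuous_const D.dom.1.cont).measurableSet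
  have e : EqOn (fun x => (N x * dmu D.g D.K (cH D u) (cK D u) x +
      ∑ j, X j x * dmo D.g D.K (cH D u) (cK D u) j x) * dens D.g x)
      (fun x => -(n - 1 : ℝ) * ((N x * lap D.g u x - kx D X u x) * dens D.g x)) {x | 0 ≤ D.F x} :=
    fun x hx => by
      have := G.act x hx
      simp only [(cf hC hR hu x).1, (cf hC hR hu x).2.1, kx, mul_add, Finset.sum_add_distrib,
        mul_left_comm (X _ x) (-2 * u x), mul_left_comm (X _ x) (n - 1 : ℝ), ← Finset.mul_sum]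
      linear_combination (-2 * u x * dens D.g x) * this
  rw [setIntegral_congr_fun ms e, integral_const_mul, integral_congr_ae (H.sη.mono fun x hx =>
    ((cf hC hR hu x).2.2 (D.dom.2.1 x hx)).trans (by rw [mar x hx, mul_zero, sub_zero])),
    integral_const_mul] at b
  simp only [cf_ar (H.unit _), integral_const_mul] at b
  refine ⟨?_, by linarith⟩
  exact ((a.congr_fun e ms).const_mul (-(n - 1 : ℝ))⁻¹).congr
    (.of_forall fun x => inv_mul_cancel_left₀ (neg_ne_zero.2 n1) _)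

end Vale.Agent.P366K3
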