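import Vale.Agent.P366K3.Jt
import Vale.Agent.P366K3.Cf

/-!
# P366K3: the end in coordinates, conformal variations with a tail
-/

set_option linter.all false

open MeasureTheory Filter Topology Set Asymptotics
open scoped ContDiff
open Vale.Agent.P366 Vale.Agent.P366M Vale.Agent.P366K
open Vale.Agent.P366.Stmt (E Field BigO flx omega)
open Vale.Agent.P366EN (bo_iff ev_pd ev_pos ev_ev)

noncomputable section

namespace Vale.Agent.P366K3

variable {n : ℕ} {M : Type} [Mfe n M] {D : Exterior n M} {h k : Fld n M} {q ε l b dE : ℝ}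
  {dP : Fin n → ℝ} {U : E n → ℝ}

/-- the metric of the end, extended to the whole space -/
def gE (D : Exterior n M) : Field n := xgj Mfe.o D.g

/-- the tensor `K` of the end, extended to the whole space -/
def kE (D : Exterior n M) : Field n := xTj Mfe.o D.K fun _ _ _ => 0

theorem far (D : Exterior n M) : ∀ᶠ y in cocompact (E n),
    R0 M < ‖y‖ ∧ fe D.g =ᶠ[𝓝 y] gE D ∧ fe D.K =ᶠ[𝓝 y] kE D :=
  P366EN.ev_iff.2 ⟨R0 M + 1 / 2, fun y m => ⟨by linarith, (xgj_ev m).symm, (xTj_ev m).symm⟩⟩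

theorem far_g (D : Exterior n M) (i j : Fin n) :
    (fun y => fe D.g y i j) =ᶠ[cocompact (E n)] fun y => gE D y i j :=
  (far D).mono fun _ m => by simp only [m.2.1.eq_of_nhds]

theorem far_K (D : Exterior n M) (i j : Fin n) :
    (fun y => fe D.K y i j) =ᶠ[cocompact (E n)] fun y => kE D y i j :=
  (far D).mono fun _ m => by simp only [m.2.2.eq_of_nhds]

theorem o2_congr {c : ℝ} {f f' : E n → ℝ} (k : P366RB.O2 q c f) (e : f' =ᶠ[cocompact (E n)] f) :
    P366RB.O2 q c f' := P366OC.o_congr k (P366OC.ev_iff.1 (P366EN.ev_iff.1 e))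

theorem af_of (hn : 3 ≤ n) (H : D.IsAF) : ∃ q, (n : ℝ) / 2 - 1 < q ∧ Af q (gE D) (kE D) := by
  obtain ⟨q, hq, H⟩ := H
  have n3 : (3 : ℝ) ≤ n := by exact_mod_cast hn
  refine ⟨q, hq, D.met.xgj _, D.smK.xTj _ fun _ _ => contDiff_const, fun y i j => ?_, by linarith,
    fun i j => o2_congr (f := fun y => fe D.g y i j) ⟨⟨_, fun _ hy => D.met.sm.fj_at hy i j⟩,
      (H i j i i).1, fun k => (H i j k k).2.1, fun l k => (H i j k l).2.2.1⟩ (far_g D i j).symm,
    fun i j => (bo_iff.1 (H i j i i).2.2.2.1).congr (far_K D i j).symm, fun k i j =>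
      ((bo_iff.1 (H i j k k).2.2.2.2).mono (by linarith)).congr (ev_pd (far_K D i j).symm k)⟩
  rw [kE, xTj_apply, xTj_apply, D.syK]

theorem far_px (U : E n → ℝ) : ∀ᶠ y in cocompact (E n), fe (fun x : M => U (px x)) =ᶠ[𝓝 y] U :=
  (P366EN.ev_iff.2 ⟨R0 M, fun y m => fj_px (by linarith) U⟩)

theorem fe_mu (D : Exterior n M) : fe (mu D.g D.K) =ᶠ[cocompact (E n)] Stmt.mu (gE D) (kE D) :=
  (far D).mono fun _ m => (mu_ye m.1 _ _).trans (mu_ev m.2.1 m.2.2.eq_of_nhds)

theorem fe_mom (D : Exterior n M) (j : Fin n) :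
    fe (mom D.g D.K j) =ᶠ[cocompact (E n)] Stmt.mom (gE D) (kE D) j :=
  (far D).mono fun _ m => (mom_ye m.1 _ _ j).trans (mom_ev m.2.1 m.2.2 j)

theorem fe_dens (D : Exterior n M) : fe (dens D.g) =ᶠ[cocompact (E n)] P366Z.dens (gE D) :=
  (far D).mono fun _ m => (dens_ye m.1.le _).trans (P366Z.dens_of_eq m.2.1.eq_of_nhds)

theorem fe_lap (D : Exterior n M) (U : E n → ℝ) :
    fe (lap D.g fun x => U (px x)) =ᶠ[cocompact (E n)] P366Z.lap (gE D) U :=
  ((far D).and (far_px (M := M) U)).mono fun _ m => (lap_ye m.1.1 _ _).trans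
    ((P366Z.lap_of_ev m.1.2.1 _).trans (P366Z.lap_congr m.2))

theorem fe_gr (D : Exterior n M) {u : M → ℝ} (e : fe u =ᶠ[cocompact (E n)] U) (a : Fin n) :
    fe (gr D.g u a) =ᶠ[cocompact (E n)] P366Z.gr (gE D) U a :=
  ((far D).and (ev_ev e)).mono fun _ m => (gr_ye m.1.1.le _ _ a).trans
    ((P366Z.gr_of_eq m.1.2.1.eq_of_nhds _ a).trans (P366Z.gr_congr_ev m.2 a).eq_of_nhds)

theorem fe_px (U : E n → ℝ) : fe (fun x : M => U (px x)) =ᶠ[cocompact (E n)] U :=
  (far_px U).mono fun _ m => m.eq_of_nhds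

/-- the weight in the end -/
def wE (ε : ℝ) (y : E n) : ℝ := (1 + ‖y‖ ^ 2) ^ (((n : ℝ) + ε) / 2)

theorem wE_lim (ε : ℝ) :
    Tendsto (fun y : E n => wE ε y * ‖y‖ ^ (-(n + ε))) (cocompact (E n)) (𝓝 1) := by
  have a : Tendsto (fun y : E n => (‖y‖ ^ (-2 : ℝ) + 1) ^ (((n : ℝ) + ε) / 2)) (cocompact (E n))
      (𝓝 1) := by
    simpa using ((P366EN.Bo.lim0 (dc_pow (n := n) (-2)) (by norm_num)).add_const 1).rpow_const
      (p := ((n : ℝ) + ε) / 2) (.inl (by norm_num))
  refine a.congr' (ev_pos.mono fun y m => ?_)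
  have : ‖y‖ ^ (-2 : ℝ) + 1 = (1 + ‖y‖ ^ 2) * ‖y‖ ^ (-2 : ℝ) := by
    rw [add_mul, one_mul, ← Real.rpow_two, ← Real.rpow_add m]
    simp
  simp only [wE]
  rw [this, Real.mul_rpow (by positivity) (by positivity), ← Real.rpow_mul m.le]
  congr 2
  ring

theorem wE_mul {f : E n → ℝ} {c : ℝ} (hq : ε < q)
    (k : Dc (n + q) fun y => f y - c * ‖y‖ ^ (-(n + ε))) :
    Tendsto (fun y => wE ε y * f y) (cocompact (E n)) (𝓝 c) := by
  have := (wE_lim (n := n) ε).mul (P366EN.Bo.lim (a := q - ε) (k.mono (by linarith)) (by linarith))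
  rw [one_mul] at this
  refine this.congr' (ev_pos.mono fun y m => ?_)
  simp only
  rw [mul_comm (f y), ← mul_assoc, mul_assoc (wE ε y), ← Real.rpow_add m]
  simp

theorem var_of (A : Af q (gE D) (kE D)) (V : Var0 h k dE dP) (hq : ε < q)
    (h1 : Dc (n + q) fun y => fe (dmu D.g D.K h k) y - l * ‖y‖ ^ (-(n + ε)))
    (h2 : ∀ j, Dc (n + q) (fe (dmo D.g D.K h k j))) : Var D ε h k dE dP l := by
  refine ⟨V, fun δ p => ?_⟩
  obtain ⟨C, c0, u⟩ := A.unit
  have t := (tendsto_sub_nhds_zero_iff.2 (wE_mul hq h1)).abs.add ((tendsto_finsetSum Finset.univ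
    fun j _ => (wE_mul (c := 0) (f := fe (dmo D.g D.K h k j)) hq ((h2 j).congr (.of_forall fun y => by simp))).abs).mul_const C)
  obtain ⟨R, hR⟩ := P366EN.ev_iff.1 ((u.and (far D)).and (t.eventually_le_const (by simpa using p)))
  refine ⟨max R (R0 M), fun x m e e1 => ?_⟩
  obtain ⟨⟨a, -, b, -⟩, c⟩ := hR _ ((le_max_left _ _).trans_lt m)
  have x0 : yp (px x) = x := yp_px (by linarith [le_max_right R (R0 M)])
  have := a e (by rw [← b.eq_of_nhds, fe, x0]; exact e1)
  simp only [fe, x0] at c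
  refine le_trans ?_ c
  rw [lin, mul_add, add_sub_right_comm, Finset.mul_sum, Finset.sum_mul]
  refine (abs_add_le _ _).trans (add_le_add le_rfl ((Finset.abs_sum_le_sum_abs _ _).trans
    (Finset.sum_le_sum fun j _ => ?_)))
  rw [← mul_assoc, abs_mul]
  exact mul_le_mul_of_nonneg_left (this j) (abs_nonneg _)

theorem var0_cf (hn : 3 ≤ n) (A : Af q (gE D) (kE D)) (hU : Stmt.Smooth U) (J : J2 (n - 2) U)
    (R : Rad b fun i => Stmt.pd i U) :
    Var0 (cH D fun x => U (px x)) (cK D fun x => U (px x)) (-b) 0 := by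
  have n3 : (3 : ℝ) ≤ n := by exact_mod_cast hn
  have q0 := A.q0
  have e1 : ∀ i j, (fun y => fe (cH D fun x => U (px x)) y i j) =ᶠ[cocompact (E n)]
      fun y => 2 * U y * gE D y i j := fun i j => ((fe_px (M := M) U).and (far_g D i j)).mono
    fun y m => congrArg₂ (2 * · * ·) m.1 m.2
  have a1 := fun i j => ((J.cm 2).mul (A.jg i j) (add_zero _).ge).congr (e1 i j)
  have a2 : ∀ i j, J1 (n - 1 + q) fun y => fe (cK D fun x => U (px x)) y i j := fun i j =>
    (J.toJ1.mul (A.jk i j) (by linarith)).congr (((fe_px (M := M) U).and (far_K D i j)).mono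
      fun y m => congrArg₂ (· * ·) m.1 m.2)
  have a3 := fun i j => (J.cm 2).mul (j2_sub (A.g2 i j)) le_rfl
  have e2 : ∀ i j c, ∀ᶠ y in cocompact (E n), Stmt.pd c (fun y => fe (cH D fun x => U (px x)) y i j) y =
      Stmt.pd c (fun y => 2 * U y * (gE D y i j - (1 : Matrix (Fin n) (Fin n) ℝ) i j)) y +
        2 * Stmt.pd c U y * (1 : Matrix (Fin n) (Fin n) ℝ) i j := fun i j c =>
    ((ev_pd (e1 i j) c).and (a3 i j).sm.df).mono fun y m => by
      rw [m.1, ← P366Z.pd_const_mul, ← P366Z.pd_mul_const, ← P366Z.pd_add m.2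
        (((hU.diff y).const_mul 2).mul_const _)]
      simp only [mul_sub, sub_add_cancel]
  refine ⟨sym_cH (smooth_px hU), sym_cK (smooth_px hU), fun i j a b => ⟨bo_iff.2 (a1 i j).d0,
    bo_iff.2 (((a1 i j).d1 a).mono (by linarith)), bo_iff.2 (((a1 i j).d2 b a).mono (by linarith)),
    bo_iff.2 ((a2 i j).d0.mono (by linarith)), bo_iff.2 (((a2 i j).d1 a).mono (by linarith))⟩, ?_,
    fun i => ?_⟩
  · have := ((R.cm (-(n - 1))).near (W' := fun i y => (∑ j, (Stmt.pd j (fun z => fe (cH D fun x =>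
      U (px x)) z i j) y - Stmt.pd i (fun z => fe (cH D fun x => U (px x)) z j j) y)) / 2)
      (fun i => (Sf.sum fun j => ((a1 i j).sm.pd j).sub ((a1 j j).sm.pd i)).mono
        fun _ m => m.div_const 2) q0 fun i => ((P366EN.Bo.sum fun j => (((a3 i j).d1 j).sub
          ((a3 j j).d1 i)).mono (b := n - 1 + q) (by linarith)).cm 2⁻¹).congr
          ((eventually_all.2 fun j => (e2 i j j).and (e2 j j i)).mono fun y m => by
        simp only [fun j => (m j).1, fun j => (m j).2, Finset.sum_sub_distrib, Finset.sum_add_distrib]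
        simp [Matrix.one_apply]
        ring)).flx (by omega)
    rwa [neg_mul, neg_div, mul_div_cancel_left₀ _ (by linarith)] at this
  · have a4 : ∀ j, J1 (n - 1 + q) fun y => fe (cK D fun x => U (px x)) y i j -
        if i = j then ∑ a, fe (cK D fun x => U (px x)) y a a else 0 := fun j => by
      split_ifs
      · exact (a2 i j).sub (J1.sum fun a => a2 a a)
      · simpa using a2 i j
    simpa using (rad_zero.near (fun j => (a4 j).sm) q0 fun j => by simpa using (a4 j).d0).flx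
      (by omega)

theorem var_tail (hC : C.CONF) (hR : REP) (hn : 3 ≤ n) (A : Af q (gE D) (kE D))
    (hU : Stmt.Smooth U) (J : J2 (n - 2) U) (R : Rad b fun i => Stmt.pd i U) (hq : ε < q)
    (L : Dc (n + q) fun y => -(n - 1) * P366Z.lap (P366Z.eu n) U y - l * ‖y‖ ^ (-(n + ε))) :
    Var D ε (cH D fun x => U (px x)) (cK D fun x => U (px x)) (-b) 0 l := by
  have q0 := A.q0
  have c := fun y => cf (D := D) hC hR (smooth_px hU) (yp y)
  refine var_of A (var0_cf hn A hU J R) hq (((L.sub (((A.lap_sub J).mono (by linarith)).cm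
    (n - 1))).sub ((J.d0.mul A.mu0 (by linarith)).cm 2)).congr ?_) fun j =>
      ((((J.d0.mul (A.m0 j) (by linarith)).cm (-2)).add ((P366EN.Bo.sum fun a => (A.k0 j a).mul
        (P366EN.Bo.sum fun i => (A.u0 a i).mul (J.d1 i) (zero_add _).ge) (by linarith)).cm
          (n - 1))).congr ?_)
  · filter_upwards [fe_px (M := M) U, fe_mu D, fe_lap D U] with y h1 h2 h3
    simp only [fe] at *
    rw [(c y).1, h1, h2, h3]
    ring
  · filter_upwards [fe_px (M := M) U, fe_mom D j, eventually_all.2 (far_K D j),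
      eventually_all.2 (fe_gr D (fe_px U))] with y h1 h2 h3 h4
    simp only [fe] at *
    simp only [(c y).2.1, h1, h2, h3, h4, P366Z.gr, mul_assoc]

/-- a power of the radius which is cut off inside -/
def tl (ρ s : ℝ) (y : E n) : ℝ := (1 - P366Z.cut ρ y) * ‖y‖ ^ s

theorem tl_in {ρ s : ℝ} {y : E n} (m : ‖y‖ ≤ ρ) : tl ρ s y = 0 := by simp [tl, P366Z.cut_one m]

theorem tl_ev {ρ : ℝ} (p : 0 < ρ) (s : ℝ) : tl ρ s =ᶠ[cocompact (E n)] fun y => ‖y‖ ^ s :=
  P366EN.ev_iff.2 ⟨2 * ρ, fun y m => by simp [tl, P366Z.cut_zero p m.le]⟩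

theorem sm_tl {ρ : ℝ} (p : 0 < ρ) (s : ℝ) : Stmt.Smooth (tl ρ s : E n → ℝ) :=
  contDiff_iff_contDiffAt.2 fun y => by
    rcases eq_or_ne y 0 with rfl | m
    · exact (contDiffAt_const (c := 0)).congr_of_eventuallyEq (((isOpen_lt continuous_norm
        continuous_const).eventually_mem (show ‖(0 : E n)‖ < ρ by simpa)).mono fun z k => tl_in k.le)
    · exact (contDiff_const.sub (P366Z.sm_cut ρ)).contDiffAt.mul (P366Z.contDiffAt_norm_rpow m s)

theorem lap_tl {ρ : ℝ} (p : 0 < ρ) (s a : ℝ) : P366Z.lap (P366Z.eu n) (fun y => a * tl ρ s y)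
    =ᶠ[cocompact (E n)] fun y => a * (s * (s + n - 2) * ‖y‖ ^ (s - 2)) :=
  ((ev_ev (tl_ev p s)).and ev_ne).mono fun y m => by
    rw [P366Z.lap_const_mul, P366Z.lap_congr m.1, P366Z.lap_eu_rpow m.2]

/-- **STR** -/
theorem str (hC : C.CONF) (hR : REP) : STR := by
  intro n M _ D hn H
  obtain ⟨q, hq, A⟩ := af_of hn H
  have n3 : (3 : ℝ) ≤ n := by exact_mod_cast hn
  refine ⟨1 / 2, one_half_pos, by norm_num, fun ε e0 e1 => ?_⟩
  have J : J2 (n - 2 + ε) fun y : E n => -((n - 1) * (ε * (n - 2 + ε)))⁻¹ * tl 1 (-(n - 2 + ε)) y := by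
    simpa only [neg_neg] using ((j2_pow (n := n) (-(n - 2 + ε))).congr (tl_ev one_pos _)).cm _
  have := var_tail (l := 1) hC hR hn A (ContDiff.mul contDiff_const (sm_tl one_pos _))
    (j2_of (J.toJ1.mono (by linarith)) fun i => (J.pd i).mono (by linarith))
    (rad_zero.near (fun i => J.sm.pd i) e0 fun i => by
      simpa using (J.d1 i).mono (by linarith)) (show ε < q by linarith)
    (dc_zero ((lap_tl one_pos (-(n - 2 + ε)) (-((n - 1) * (ε * (n - 2 + ε)))⁻¹)).mono fun y m => by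
      have : (n - 1 : ℝ) ≠ 0 := by linarith
      have : (n - 2 + ε : ℝ) ≠ 0 := by linarith
      rw [m, show -((n : ℝ) - 2 + ε) - 2 = -(n + ε) by ring]
      field_simp
      ring))
  exact ⟨_, _, by simpa using this⟩

end Vale.Agent.P366K3
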