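import Vale.Agent.P366K3.Asy
import Vale.Agent.P366EN.End
import Vale.Agent.P366XR.Cov
import Vale.Agent.P366F.Defs

/-!
# P366K3: the asymptotics of Killing initial data in an asymptotically flat end
-/

set_option linter.all false

open Set Filter Topology Metric Asymptotics Bornology
open scoped ContDiff
open Vale.Agent.P366.Stmt Vale.Agent.P366Z
open Vale.Agent.P366RB (O2)
open Vale.Agent.P366XR (Kid EE cT Sm Vf)
open Vale.Agent.P366Y.C (rc)
open Vale.Agent.P366P (cd pd_cd diff_cd)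
open Vale.Agent.P366EN (bo_iff o_inv o_sm ev_ev two)

noncomputable section

namespace Vale.Agent.P366K3

variable {n : ℕ} {q s t : ℝ} {g K : Field n} {f h w : E n → ℝ}

/-- decay of the order `q` -/
abbrev Dc (q : ℝ) (f : E n → ℝ) : Prop := P366EN.Bo q f

/-- asymptotically flat data on the whole space -/
structure Af (q : ℝ) (g K : Field n) : Prop where
  met : Met g
  sm : Sm K
  sy : ∀ y i j, K y i j = K y j i
  q0 : 0 < q
  g2 : ∀ i j, O2 q ((1 : Matrix (Fin n) (Fin n) ℝ) i j) fun y => g y i j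
  k0 : ∀ i j, Dc (q + 1) fun y => K y i j
  k1 : ∀ k i j, Dc (q + 2) (pd k fun y => K y i j)

theorem o_0 {c : ℝ} (hq : 0 < q) (h : O2 q c f) : Dc 0 f :=
  bo_iff.1 (P366OC.bo_lim (P366OC.lim hq h.d0))

theorem o_1 {c : ℝ} (h : O2 q c f) (i : Fin n) : Dc (q + 1) (pd i f) := bo_iff.1 (h.d1 i)

theorem o_2 {c : ℝ} (h : O2 q c f) (i j : Fin n) : Dc (q + 2) (pd i (pd j f)) :=
  (bo_iff.1 (h.d2 i j)).mono (by linarith)

namespace Af

variable (A : Af q g K)
include A

theorem u2 (i j : Fin n) : O2 q ((1 : Matrix (Fin n) (Fin n) ℝ) i j) (up g i j) := by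
  have := o_inv A.q0 (H := 1) (M := mat g) (by simp) A.g2 i j
  rwa [inv_one] at this

theorem g0 (i j : Fin n) : Dc 0 fun y => g y i j := o_0 A.q0 (A.g2 i j)
theorem u0 (i j : Fin n) : Dc 0 (up g i j) := o_0 A.q0 (A.u2 i j)

theorem c0 (k i j : Fin n) : Dc (q + 1) (chr g k i j) :=
  ((P366EN.Bo.sum fun l => (A.u0 k l).mul (((o_1 (A.g2 j l) i).add (o_1 (A.g2 i l) j)).sub
    (o_1 (A.g2 i j) l)) (zero_add _).ge).cm 2⁻¹).congr (.of_forall fun y => by
      simp only [chr]; ring)

theorem c1 (a k i j : Fin n) : Dc (q + 2) (pd a (chr g k i j)) := by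
  have d := fun i j l y => ((A.met.sm i j).pd l).diff y
  refine ((P366EN.Bo.sum fun l => ((o_1 (A.u2 k l) a).mul (((o_1 (A.g2 j l) i).add
    (o_1 (A.g2 i l) j)).sub (o_1 (A.g2 i j) l)) (by linarith [A.q0])).add ((A.u0 k l).mul
      (((o_2 (A.g2 j l) a i).add (o_2 (A.g2 i l) a j)).sub (o_2 (A.g2 i j) a l))
        (zero_add _).ge)).cm 2⁻¹).congr (.of_forall fun y => ?_)
  have e := fun l => ((d j l i y).fun_add (d i l j y)).fun_sub (d i j l y)
  unfold chr
  simp only [div_eq_inv_mul, pd_const_mul]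
  rw [pd_sum _ fun l _ => ((A.met.sm_up k l).diff y).fun_mul (e l)]
  simp only [pd_mul ((A.met.sm_up k _).diff y) (e _), pd_sub ((d j _ i y).fun_add (d i _ j y))
    (d i j _ y), pd_add (d j _ i y) (d i _ j y)]

theorem r0 (i j : Fin n) : Dc (q + 2) fun y => rc g y i j :=
  P366EN.Bo.sum fun _ => ((A.c1 ..).sub (A.c1 ..)).add (P366EN.Bo.sum fun _ =>
    ((A.c0 ..).mul (A.c0 ..) (by linarith [A.q0])).sub ((A.c0 ..).mul (A.c0 ..) (by linarith [A.q0])))

theorem t0 (k i j : Fin n) : Dc (q + 2) (cT g K k i j) :=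
  (A.k1 k i j).sub (P366EN.Bo.sum fun _ => ((A.c0 ..).mul (A.k0 ..) (by linarith [A.q0])).add
    ((A.c0 ..).mul (A.k0 ..) (by linarith [A.q0])))

theorem tr0 : Dc (q + 1) (tr g K) :=
  P366EN.Bo.sum fun _ => P366EN.Bo.sum fun _ => (A.u0 ..).mul (A.k0 ..) (zero_add _).ge

theorem m0 (j : Fin n) : Dc (q + 2) (mom g K j) :=
  ((P366EN.Bo.sum fun i => P366EN.Bo.sum fun k => (A.u0 i k).mul (A.t0 k i j) (zero_add _).ge).sub
    (P366EN.Bo.sum fun i => P366EN.Bo.sum fun k => (A.u0 i k).mul (A.t0 j k i)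
      (zero_add _).ge)).congr (.of_forall fun y => by
        rw [P366XR.mom_eq A.met A.sm, P366XR.pd_tr A.met A.sm]; rfl)

end Af

/-- decay of the order `s` relative to `w` -/
def Ow (w : E n → ℝ) (s : ℝ) (f : E n → ℝ) : Prop :=
  f =O[cocompact (E n)] fun x => ‖x‖ ^ (-s) * w x

namespace Ow

theorem congr (k : Ow w s f) (e : h =ᶠ[cocompact (E n)] f) : Ow w s h := e.trans_isBigO k
theorem add (k : Ow w s f) (l : Ow w s h) : Ow w s fun x => f x + h x := IsBigO.add k l
theorem sub (k : Ow w s f) (l : Ow w s h) : Ow w s fun x => f x - h x := IsBigO.sub k l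
theorem cm (c : ℝ) (k : Ow w s f) : Ow w s fun x => c * f x := IsBigO.const_mul_left k c
theorem sum {ι : Type} [Fintype ι] {F : ι → E n → ℝ} (k : ∀ i, Ow w s (F i)) :
    Ow w s fun x => ∑ i, F i x :=
  (IsBigO.sum (s := Finset.univ) fun i _ => k i).congr_left fun x => Finset.sum_apply x _ F

theorem mul (l : Dc q h) (k : Ow w s f) (e : t ≤ q + s) : Ow w t fun x => h x * f x :=
  ((IsBigO.mul l k).congr' EventuallyEq.rfl (.of_forall fun _ => (mul_assoc ..).symm)).trans
    (IsBigO.mul (P366EN.Bo.mul (a := q) (b := s) (isBigO_refl _ _) (isBigO_refl _ _) e)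
      (isBigO_refl _ _))

theorem mul' (k : Ow w s f) (l : Dc q h) (e : t ≤ q + s) : Ow w t fun x => f x * h x := by
  simpa only [mul_comm (f _)] using mul l k e

end Ow

variable {N : E n → ℝ} {X : Vf n}

/-- the equations near infinity -/
def Far (g K : Field n) (N : E n → ℝ) (X : Vf n) : Prop :=
  ∀ᶠ y in cocompact (E n), P366F.Kq g K N X y

theorem Af.second (A : Af q g K) (F : Far g K N X) (n0 : Ow w (-1) N) (x0 : ∀ i, Ow w (-1) (X i))
    (n1 : ∀ a, Ow w 0 (pd a N)) (x1 : ∀ a i, Ow w 0 (pd a (X i))) :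
    (∀ i j, Ow w (q + 1) (pd i (pd j N))) ∧ ∀ i j k, Ow w (q + 1) (pd i (pd j (X k))) := by
  have q0 := A.q0
  have c : ∀ i j, Ow w 0 (cd g X i j) := fun i j =>
    (x1 j i).add (.sum fun k => .mul (A.c0 ..) (x0 k) (by linarith))
  have l : ∀ i, Ow w (-1) (P366RB.lo g X i) := fun i =>
    .sum fun k => .mul (A.g0 ..) (x0 k) (by linarith)
  refine ⟨fun i j => (((((((l i).mul' (A.m0 j) (by linarith)).add ((l j).mul' (A.m0 i)
    (by linarith))).cm 2⁻¹).add (.sum fun k => .mul (A.c0 k i j) (n1 k) (by linarith))).sub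
      (.sum fun k => (((x0 k).mul' (A.t0 k i j) (by linarith)).add (.mul (A.k0 k j) (c k i)
        (by linarith))).add (.mul (A.k0 i k) (c k j) (by linarith)))).add (n0.mul' (((A.r0 i j).add
          (A.tr0.mul (A.k0 i j) (by linarith))).sub ((P366EN.Bo.sum fun k => P366EN.Bo.sum fun l =>
            ((A.k0 i k).mul (A.u0 k l) (add_zero _).ge).mul (A.k0 l j) (by linarith)).cm 2))
              (by linarith))).congr (F.mono fun y m => ?_), ?_⟩
  · have := m.ee i j
    simp only [EE, hess] at this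
    linarith
  have T : ∀ a i j, Ow w (q + 1) fun y => ∑ k, g y j k * pd a (pd i (X k)) y +
      ∑ k, g y i k * pd a (pd j (X k)) y := fun a i j => by
    have r : ∀ i j, Ow w (q + 1) fun y => ∑ k, (pd a (fun z => g z j k) y * cd g X k i y + g y j k *
        ∑ l, (pd a (chr g k i l) y * X l y + chr g k i l y * pd a (X l) y)) := fun i j =>
      .sum fun k => (Ow.mul (o_1 (A.g2 j k) a) (c k i) (by linarith)).add (.mul (A.g0 ..)
        (.sum fun l => (Ow.mul (A.c1 ..) (x0 l) (by linarith)).add (.mul (A.c0 ..) (x1 a l)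
          (by linarith))) (zero_add _).ge)
    refine ((((((n1 a).mul' (A.k0 i j) (by linarith)).add (n0.mul' (A.k1 a i j) (by linarith))).cm
      (-2)).sub (r i j)).sub (r j i)).congr ((ev_ev F).mono fun y m => ?_)
    have s := fun k => two (m.self_of_nhds.smX k)
    have d := fun i j => (A.met.sm i j).diff y
    have e := pd_congr (m.mono fun z k => k.kil i j) a
    rw [pd_sum _ fun k _ => ((d j k).fun_mul (diff_cd A.met s k i)).fun_add
      ((d i k).fun_mul (diff_cd A.met s k j))] at e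
    simp only [pd_add ((d j _).fun_mul (diff_cd A.met s _ i)) ((d i _).fun_mul (diff_cd A.met s _ j)),
      pd_mul (d _ _) (diff_cd A.met s _ _), pd_cd A.met s, mul_assoc, pd_const_mul,
      pd_mul (diff2 (two m.self_of_nhds.smN)) ((A.sm i j).diff y), mul_add, Finset.sum_add_distrib] at e ⊢
    linarith
  refine fun a i m => (Ow.sum fun j => .mul (A.u0 m j) ((((T a i j).add (T i a j)).sub
    (T j a i)).cm 2⁻¹) (zero_add _).ge).congr (F.mono fun y k => ?_)
  have s := fun l => pd_comm (two (k.smX l))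
  rw [← A.met.up_g_mul y m fun k => pd a (pd i (X k)) y]
  refine Finset.sum_congr rfl fun j _ => congrArg _ ?_
  simp only [s _ i a, s _ j a, s _ j i]
  ring

/-! ### families of functions as one vector valued function -/

section Vec

variable {ι : Type} [Fintype ι] {U : ι → E n → ℝ} {y : E n}

/-- the vector valued function -/
def vc (U : ι → E n → ℝ) (y : E n) : ι → ℝ := fun a => U a y

/-- the size of the first jet -/
def wt (U : ι → E n → ℝ) (y : E n) : ℝ := ‖vc U y‖ / ‖y‖ + ‖fderiv ℝ (vc U) y‖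

theorem cd_vc (h : ∀ a, ContDiffAt ℝ ∞ (U a) y) : ContDiffAt ℝ 2 (vc U) y :=
  contDiffAt_pi.2 fun a => two (h a)

theorem pd_vc (h : ∀ a, DifferentiableAt ℝ (U a) y) (a : ι) (i : Fin n) :
    pd i (U a) y = fderiv ℝ (vc U) y (EuclideanSpace.single i 1) a := by
  rw [pd_eq (h a), show fderiv ℝ (vc U) y = _ from fderiv_pi h]
  rfl

theorem pd2_vc (h : ∀ a, ContDiffAt ℝ ∞ (U a) y) (a : ι) (i j : Fin n) : pd i (pd j (U a)) y =
    fderiv ℝ (fderiv ℝ (vc U)) y (EuclideanSpace.single i 1) (EuclideanSpace.single j 1) a := by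
  have d : DifferentiableAt ℝ (fderiv ℝ (vc U)) y :=
    ((cd_vc h).fderiv_right (m := 1) (by norm_num)).differentiableAt (by norm_num)
  refine (pd_congr ((eventually_all.2 fun a => ev_diff (two (h a))).mono fun z k => pd_vc k a j)
    i).trans ((pd_of_hasFDerivAt (hasFDerivAt_pi'.1
      (d.hasFDerivAt.clm_apply (hasFDerivAt_const (EuclideanSpace.single j 1) y)) a) i).trans ?_)
  simp

theorem clm_le {W : Type} [NormedAddCommGroup W] [NormedSpace ℝ W] (L : E n →L[ℝ] W) :
    ‖L‖ ≤ ∑ i, ‖L (EuclideanSpace.single i 1)‖ := by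
  refine L.opNorm_le_bound (by positivity) fun v => ?_
  have : v = ∑ i, v i • EuclideanSpace.single i (1 : ℝ) := by
    ext j; simp [Pi.single_apply]
  conv_lhs => rw [this]
  rw [map_sum, Finset.sum_mul]
  refine norm_sum_le_of_le _ fun i _ => ?_
  rw [map_smul, norm_smul, mul_comm]
  exact mul_le_mul_of_nonneg_left (PiLp.norm_apply_le v i) (norm_nonneg _)

theorem app_le {W : Type} [NormedAddCommGroup W] [NormedSpace ℝ W] (L : E n →L[ℝ] W) (i : Fin n) :
    ‖L (EuclideanSpace.single i 1)‖ ≤ ‖L‖ := by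
  simpa using L.le_opNorm (EuclideanSpace.single i 1)

theorem ow0 (U : ι → E n → ℝ) (a : ι) : Ow (wt U) (-1) (U a) :=
  .of_bound' (P366EN.ev_pos.mono fun y y0 => (norm_le_pi_norm (vc U y) a).trans (by
    rw [neg_neg, Real.rpow_one, wt, Real.norm_of_nonneg (r := _ * _) (by positivity), mul_add,
      mul_div_cancel₀ _ y0.ne']
    exact le_add_of_nonneg_right (by positivity)))

variable (sm : ∀ᶠ y in cocompact (E n), ∀ a, ContDiffAt ℝ ∞ (U a) y)
include sm

theorem ow1 (a : ι) (i : Fin n) : Ow (wt U) 0 (pd i (U a)) :=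
  .of_bound' (sm.mono fun y k => by
    rw [pd_vc (fun a => diff2 (two (k a))), neg_zero, Real.rpow_zero, one_mul, wt,
      Real.norm_of_nonneg (r := _ + _) (by positivity)]
    exact ((norm_le_pi_norm _ a).trans (app_le _ i)).trans (le_add_of_nonneg_left (by positivity)))

theorem sys_of (h : ∀ a i j, Ow (wt U) (q + 1) (pd i (pd j (U a)))) : Sys q (vc U) := by
  obtain ⟨C, c0, k⟩ := (Ow.sum fun i => Ow.sum fun j => Ow.sum fun a =>
    (show Ow (wt U) (q + 1) fun y => ‖pd i (pd j (U a)) y‖ from (h a i j).norm_left)).exists_nonneg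
  rw [← cobounded_eq_cocompact] at sm k
  refine ⟨sm.mono fun y k => (cd_vc k).differentiableAt (by norm_num), sm.mono fun y k =>
    ((cd_vc k).fderiv_right (m := 1) (by norm_num)).differentiableAt (by norm_num), C, c0, ?_⟩
  filter_upwards [sm, k.bound] with y s k
  rw [Real.norm_of_nonneg (r := _ * _) (by unfold wt; positivity), neg_add'] at k
  refine (clm_le _).trans (le_trans (Finset.sum_le_sum fun i _ => (clm_le _).trans
    (Finset.sum_le_sum fun j _ => ?_)) ((le_abs_self _).trans k))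
  simp only [pd2_vc s]
  exact (pi_norm_le_iff_of_nonneg (by positivity)).2 fun a =>
    Finset.single_le_sum (fun _ _ => norm_nonneg _) (Finset.mem_univ a)

omit sm in
theorem dc_of {W : Type} [NormedAddCommGroup W] [NormedSpace ℝ W] {F : E n → W} (h : Bo s F)
    (e : s = -t) (k : ∀ᶠ y in cocompact (E n), ‖f y‖ ≤ ‖F y‖) : BigO t f := by
  obtain ⟨C, c0, m⟩ := h
  rw [cobounded_eq_cocompact, e] at m
  exact bo_iff.2 (.of_bound C ((k.and m).mono fun y l => l.1.trans (l.2.trans_eq (by
    rw [Real.norm_of_nonneg (r := _ ^ _) (by positivity)]))))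

theorem o2_of {u0 : ι → ℝ} (h0 : Bo (-q) fun y => vc U y - u0) (h1 : Bo (-q - 1) (fderiv ℝ (vc U)))
    (h2 : Bo (-q - 2) (fderiv ℝ (fderiv ℝ (vc U)))) (a : ι) : O2 q (u0 a) (U a) :=
  ⟨P366EN.ev_iff.1 (sm.mono fun _ k => k a),
    dc_of h0 rfl (.of_forall fun y => norm_le_pi_norm (vc U y - u0) a),
    fun i => dc_of h1 (by ring) (sm.mono fun y k => by
      rw [pd_vc fun a => diff2 (two (k a))]
      exact (norm_le_pi_norm _ a).trans (app_le _ i)),
    fun i j => dc_of h2 (by ring) (sm.mono fun y k => by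
      rw [pd2_vc k]
      exact (norm_le_pi_norm _ a).trans ((app_le _ j).trans (app_le _ i)))⟩

omit sm in
theorem bo_of {W : Type} [NormedAddCommGroup W] [NormedSpace ℝ W] {F : E n → W} (h : Dc t f)
    (e : s = -t) (k : ∀ᶠ y in cocompact (E n), ‖F y‖ ≤ f y) : Bo s F := by
  obtain ⟨C, c0, m⟩ := h.exists_nonneg
  refine ⟨C, c0, ?_⟩
  rw [cobounded_eq_cocompact, e]
  filter_upwards [k, m.bound] with y k m
  rw [Real.norm_of_nonneg (r := _ ^ _) (by positivity)] at m
  exact k.trans ((le_abs_self _).trans m)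

theorem zero_of (hV : 1 < Module.rank ℝ (E n)) (hq : 0 < q) (S : Sys q (vc U))
    (h : ∀ a, O2 q 0 (U a)) : ∀ᶠ y in cocompact (E n), ∀ a, U a y = 0 := by
  have := S.zero hV hq (bo_of (f := fun y => ∑ a, ‖U a y - 0‖) (P366EN.Bo.sum fun a =>
    (bo_iff.1 (h a).d0).norm_left) rfl (.of_forall fun y => (pi_norm_le_iff_of_nonneg
      (by positivity)).2 fun a => by
        simpa [vc] using Finset.single_le_sum (f := fun a => ‖U a y‖) (fun _ _ => norm_nonneg _)
          (Finset.mem_univ a))) (bo_of (f := fun y => ∑ i, ∑ a, ‖pd i (U a) y‖)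
    (P366EN.Bo.sum fun i => P366EN.Bo.sum fun a => (o_1 (h a) i).norm_left) (by ring)
    (sm.mono fun y k => (clm_le _).trans (Finset.sum_le_sum fun i _ => by
      simp only [pd_vc fun a => diff2 (two (k a))]
      exact (pi_norm_le_iff_of_nonneg (by positivity)).2 fun a =>
        Finset.single_le_sum (fun _ _ => norm_nonneg _) (Finset.mem_univ a))))
  rw [cobounded_eq_cocompact] at this
  exact this.mono fun y k a => congrFun k a

end Vec

/-- the lapse and the shift as one family -/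
def zz (N : E n → ℝ) (X : Vf n) (a : Option (Fin n)) : E n → ℝ := a.elim N X

theorem Far.sm (F : Far g K N X) : ∀ᶠ y in cocompact (E n), ∀ a, ContDiffAt ℝ ∞ (zz N X a) y :=
  F.mono fun _ k a => by cases a; exacts [k.smN, k.smX _]

theorem Af.sys (A : Af q g K) (F : Far g K N X) : Sys q (vc (zz N X)) := by
  have := A.second F (ow0 (zz N X) none) (fun i => ow0 (zz N X) (some i)) (ow1 F.sm none)
    fun a i => ow1 F.sm (some i) a
  exact sys_of F.sm fun a i j => by cases a; exacts [this.1 i j, this.2 i j _]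

theorem rank (hn : 2 ≤ n) : 1 < Module.rank ℝ (E n) := by
  rw [← Module.finrank_eq_rank, finrank_euclideanSpace_fin]
  exact_mod_cast hn

/-- **the asymptotics of causal Killing initial data** -/
theorem Af.asy (A : Af q g K) (F : Far g K N X) (hn : 2 ≤ n) (hq : 1 / 2 < q)
    (c : ∀ᶠ y in cocompact (E n), 0 ≤ N y ∧ P366RB.sq g X y ≤ N y ^ 2) :
    ∃ (N0 : ℝ) (X0 : Fin n → ℝ), O2 q N0 N ∧ ∀ i, O2 q (X0 i) (X i) := by
  obtain ⟨C, c0, k⟩ := (P366EN.Bo.sum fun i => P366EN.Bo.sum fun j =>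
    (show Dc 0 fun y => ‖up g i j y‖ from (A.u0 i j).norm_left)).exists_nonneg
  obtain ⟨u0, h0, h1, h2⟩ := (A.sys F).asy (rank hn) hq
    ((n * C + 1) • ContinuousLinearMap.proj none) (by
      rw [cobounded_eq_cocompact]
      filter_upwards [c, k.bound] with y c k
      have p : 0 ≤ n * C := by positivity
      have u : ∀ i j, |up g i j y| ≤ C := fun i j => ((Finset.single_le_sum (f := fun j => ‖up g i j y‖)
        (fun _ _ => norm_nonneg _) (Finset.mem_univ j)).trans (Finset.single_le_sum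
          (f := fun i => ∑ j, ‖up g i j y‖) (fun _ _ => by positivity) (Finset.mem_univ i))).trans
            ((le_abs_self _).trans (by simpa using k))
      have s := lo_of_hi (by positivity) (A.met.g_nonneg y fun i => X i y)
        ((A.met.sq_le y fun i => X i y).trans_eq (mul_comm ..)) (quad_le_of_bd u _) p
      show _ ≤ (n * C + 1) * N y
      refine (pi_norm_le_iff_of_nonneg (mul_nonneg (by positivity) c.1)).2 fun a => ?_
      cases a with
      | none => exact (abs_of_nonneg c.1).trans_le (by nlinarith [c.1])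
      | some i =>
        refine abs_le_of_sq_le_sq ((Finset.single_le_sum (f := fun i => X i y ^ 2)
          (fun _ _ => sq_nonneg _) (Finset.mem_univ i)).trans (s.trans
            ((mul_le_mul_of_nonneg_left c.2 p).trans ?_))) (mul_nonneg (by positivity) c.1)
        rw [mul_pow]
        exact mul_le_mul_of_nonneg_right (by nlinarith) (sq_nonneg _))
  exact ⟨u0 none, fun i => u0 (some i), o2_of F.sm h0 h1 h2 none,
    fun i => o2_of F.sm h0 h1 h2 (some i)⟩

/-- **uniqueness from infinity** -/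
theorem Af.zero (A : Af q g K) (F : Far g K N X) (hn : 2 ≤ n) (h0 : O2 q 0 N)
    (h1 : ∀ i, O2 q 0 (X i)) : ∀ᶠ y in cocompact (E n), N y = 0 ∧ ∀ i, X i y = 0 :=
  (zero_of F.sm (rank hn) A.q0 (A.sys F) fun a => by cases a; exacts [h0, h1 _]).mono
    fun _ k => ⟨k none, fun i => k (some i)⟩

end Vale.Agent.P366K3
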