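import Vale.Agent.P366K3.Tm
import Vale.Agent.P366F.Ks
import Vale.Agent.P366RB.Glue

/-!
# P366K3: the multipliers give the data of the second half
-/

set_option linter.all false

open MeasureTheory Filter Topology Set Asymptotics
open scoped ContDiff
open Vale.Agent.P366 Vale.Agent.P366M Vale.Agent.P366K
open Vale.Agent.P366.Stmt (E Field BigO flx omega)
open Vale.Agent.P366EN (bo_iff ev_pd ev_pos ev_ev o_sm)
open Vale.Agent.P366RB (O2)
open Vale.Agent.P366XR (Vf)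
open Vale.Agent.P366F (Mu OKK)

noncomputable section

namespace Vale.Agent.P366K3

variable {n : ℕ} {M : Type} [Mfe n M] {A : Mu n M} {N : M → ℝ} {X : Fin n → M → ℝ}

theorem open_U (A : Mu n M) : IsOpen A.U := isOpen_iff_mem_nhds.2 fun x ⟨p, O, o, z⟩ => by
  filter_upwards [(isOpen_lt continuous_const A.D.dom.1.cont).mem_nhds p,
    eventually_mem_nhds_iff.2 o] with y a b
  exact ⟨a, O, b, z⟩

theorem far_U (hA : A.Ok) : ∃ R, ∀ x : M, R < ‖px x‖ → x ∈ A.U := by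
  obtain ⟨R, hR⟩ := A.D.dom.2.2.2
  refine ⟨max R A.R2, fun x k => ⟨hR x ((le_max_left _ _).trans_lt k), _,
    ev_lt_px ((le_max_right _ _).trans_lt k), ?_⟩⟩
  simpa only [ae_iff, not_le, preimage_setOf_eq] using hA.mm.sβ

theorem far_U' (hA : A.Ok) : ∀ᶠ y in cocompact (E n), (yp y : M) ∈ A.U := by
  obtain ⟨R, hR⟩ := far_U hA
  exact P366EN.ev_iff.2 ⟨max R (R0 M), fun y k => hR _ (by
    rw [px_yp (by linarith [le_max_right R (R0 M)])]; exact (le_max_left _ _).trans_lt k)⟩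

theorem far_Kq (hA : A.Ok) (k : A.Kq N X) :
    Far (gE A.D) (kE A.D) (fe N) fun i => fe (X i) := ((far A.D).and (far_U' hA)).mono
  fun y ⟨⟨r, e1, e2⟩, u⟩ => by
    have := k _ (ch_mem (yp y : M)) (pt (yp y : M)) (by rwa [symm_pt])
    rw [show pt (yp y : M) = y from pt_ye r.le] at this
    exact kq_ev this ((rep_ye r _).trans e1) ((rep_ye r _).trans e2) (loc_ye r.le N) (repV_ye r X)

/-- **the asymptotics of the multipliers** -/
theorem ex_asy (hC : P366K.C.CONF) (hR : REP) (hA : A.Ok) (G : A.Rp N X) (k : A.Kq N X) :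
    ∃ q ρ NE XE, (n : ℝ) / 2 - 1 < q ∧ Af q (gE A.D) (kE A.D) ∧ Fc A.D A.R2 N X ρ NE XE ∧
      O2 q (A.c * (A.m / bm A.m A.P)) (fe N) ∧
      ∀ i, O2 q (-(A.c * (A.P i / bm A.m A.P))) (fe (X i)) := by
  have Q := hA.eqc
  have n3 : (3 : ℝ) ≤ n := by exact_mod_cast Q.n3
  obtain ⟨q, hq, B⟩ := af_of Q.n3 Q.af
  obtain ⟨N0, X0, oN, oX⟩ := B.asy (far_Kq hA k) (by linarith [Q.n3]) (by linarith)
    (((far A.D).and (far_U' hA)).mono fun y ⟨⟨_, e, _⟩, u⟩ => ⟨G.N0 _ u.1.le, by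
      rw [P366RB.sq, ← e.eq_of_nhds]; exact G.le _ u.1.le⟩)
  obtain ⟨NE, sN, eN⟩ := P366EN.ext (o_sm oN)
  choose XE sX eX using fun i => P366EN.ext (o_sm (oX i))
  obtain ⟨R, f⟩ := P366EN.ev_iff.1 ((far A.D).and ((ev_ev eN.symm).and
    ((eventually_all.2 fun i => ev_ev (eX i).symm).and (far_U' hA))))
  have C : Fc A.D A.R2 N X (max R (max (R0 M) A.R2) + 1) NE XE :=
    ⟨by linarith [le_max_right R (max (R0 M) A.R2), le_max_left (R0 M) A.R2],
      by linarith [le_max_right R (max (R0 M) A.R2), le_max_right (R0 M) A.R2], sN, sX, fun y m =>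
      let ⟨a, b, c, d⟩ := f y (by linarith [le_max_left R (max (R0 M) A.R2)])
      ⟨a.2, b, c, d.1⟩⟩
  have e : A.ε < q := by linarith [hA.ε1]
  have o := fun i => o2_congr (oX i) (eX i)
  exact ⟨q, _, NE, XE, hq, B, C, C.energy hC hR Q hA.mm G B e (o2_congr oN eN) o ▸ oN,
    fun i => C.momentum hR Q hA.mm G B e o i ▸ oX i⟩

theorem bm_pos (hA : A.Ok) : 0 < bm A.m A.P :=
  hA.eqc.ms ▸ (P366RB.kap hA.eqc.n3 hA.eqc.κ0).1

/-- **OKK** -/
theorem okk (hC : P366K.C.CONF) (hR : REP) : OKK := by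
  intro n M _ A hA c1 _ N X G k
  obtain ⟨q, ρ, NE, XE, hq, B, C, oN, oX⟩ := ex_asy hC hR hA G k
  have Q := hA.eqc
  have b := bm_pos hA
  have e : (A.c * (A.m / bm A.m A.P)) ^ 2 - ∑ i, (-(A.c * (A.P i / bm A.m A.P))) ^ 2 = 1 := by
    simp only [c1, one_mul, neg_sq, div_pow, ← Finset.sum_div, ← sub_div]
    rw [div_eq_one_iff_eq (by positivity), bm, Real.sq_sqrt (Real.sqrt_pos.1 b).le]
  have : Nontrivial (E n) := Module.nontrivial_of_finrank_pos (R := ℝ) (by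
    rw [finrank_euclideanSpace_fin]; linarith [Q.n3])
  have p : 0 ≤ A.c * (A.m / bm A.m A.P) := ge_of_tendsto (tendsto_sub_nhds_zero_iff.1
    ((bo_iff.1 oN.d0).lim0 B.q0)) ((far_U' hA).mono fun y u => G.N0 _ u.1.le)
  refine ⟨q, _, _, Q.n3, Q.dec, Q.mar, open_U A, fun _ u => u.1, far_U hA, k, G.N0,
    fun x m => sub_nonneg.2 (G.le x m), fun x u => G.act x u.1.le, fun e m => (G.lip e m).1,
    fun e m => (G.lip e m).2, hq, fun i j => o2_congr (B.g2 i j) (far_g _ i j), fun i j =>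
      ⟨bo_iff.2 ((B.k0 i j).congr (far_K _ i j)), fun l => bo_iff.2 (((B.k1 l i j).mono
        (by linarith)).congr (ev_pd (far_K _ i j) l))⟩, oN, oX, p.lt_of_ne fun z => ?_, e, Q.κ0,
    tendsto_const_nhds.congr' ((eventually_ge_atTop ρ).mono fun r m => ?_)⟩
  · rw [← z] at e
    linarith [Finset.sum_nonneg fun i (_ : i ∈ Finset.univ) =>
      sq_nonneg (-(A.c * (A.P i / bm A.m A.P)))]
  · refine Eq.trans ?_ (C.komar hC hR Q hA.mm G B m).symm
    rw [hA.mm.mass, Q.ka, ← Q.ms]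
    simp only [c1, one_mul]

end Vale.Agent.P366K3
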