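import Vale.Agent.P366K3.Okk
import Vale.Agent.P366F.Ad
import Vale.Agent.P366SB.Jet
import Vale.Agent.P366Q.A.Hop

/-!
# P366K3: the multipliers are normal
-/

set_option linter.all false

open MeasureTheory Filter Topology Set Metric
open scoped ContDiff
open Vale.Agent.P366 hiding E
open Vale.Agent.P366M Vale.Agent.P366K
open Vale.Agent.P366.Stmt (E)
open Vale.Agent.P366F (Mu CPOS jet)
open Vale.Agent.P366SB (Lj lj_jet cd_jet)

noncomputable section

namespace Vale.Agent.P366K3

variable {n : ℕ}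

/-- uniqueness for linear systems of first order on convex sets -/
theorem ucp {ι : Type} [Fintype ι] {u : ι → E n → ℝ} {B : Set (E n)} (hB : Convex ℝ B)
    (d : ∀ y ∈ B, ∀ a, DifferentiableAt ℝ (u a) y) (L : ∀ a i, Lj u B (Stmt.pd i (u a)))
    {y0 y : E n} (h0 : y0 ∈ B) (hy : y ∈ B) (z : ∀ a, u a y0 = 0) (a : ι) : u a y = 0 := by
  choose c h1 h2 using L
  have m : ∀ t ∈ Icc (0 : ℝ) 1, y0 + t • (y - y0) ∈ B := fun t ht => hB.add_smul_sub_mem h0 hy ht
  have e : ∀ t ∈ Icc (0 : ℝ) 1, HasDerivAt (fun t : ℝ => fun a => u a (y0 + t • (y - y0)))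
      (fun a => ∑ b, (∑ i, (y - y0) i * c a i b (y0 + t • (y - y0))) * u b (y0 + t • (y - y0))) t :=
    fun t ht => hasDerivAt_pi.2 fun a => by
      have := (d _ (m t ht) a).hasFDerivAt.comp_hasDerivAt t
        (((hasDerivAt_id t).smul_const (y - y0)).const_add y0)
      rw [one_smul, P366Z.fderiv_eq_sum (d _ (m t ht) a)] at this
      simp only [h2 a _ _ (m t ht), Finset.mul_sum, ← mul_assoc] at this
      rw [Finset.sum_comm] at this
      simp only [Finset.sum_mul]
      exact this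
  obtain ⟨K, hK⟩ := isCompact_Icc.exists_bound_of_continuousOn (s := Icc (0 : ℝ) 1)
    (f := fun t : ℝ => ∑ a, ∑ b, |∑ i, (y - y0) i * c a i b (y0 + t • (y - y0))|)
    (continuous_finsetSum _ fun a _ => continuous_finsetSum _ fun b _ => (continuous_finsetSum _
      fun i _ => continuous_const.mul ((h1 a i b).continuous.comp (by fun_prop))).abs).continuousOn
  have := eq_zero_of_abs_deriv_le_mul_abs_self_of_eq_zero_right (K := K)
    (fun t ht => (e t ht).continuousAt.continuousWithinAt)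
    (fun t ht => (e t (Ico_subset_Icc_self ht)).hasDerivWithinAt) (funext fun a => by simpa using z a)
    (fun t ht => by
      have k := (le_abs_self _).trans (hK t (Ico_subset_Icc_self ht))
      refine (pi_norm_le_iff_of_nonneg (mul_nonneg (le_trans (by positivity) k)
        (norm_nonneg _))).2 fun a => (norm_sum_le_of_le _ fun b _ => (norm_mul_le _ _).trans
          (mul_le_mul_of_nonneg_left (norm_le_pi_norm (fun a => u a (y0 + t • (y - y0))) b)
            (norm_nonneg _))).trans ?_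
      rw [← Finset.sum_mul]
      exact mul_le_mul_of_nonneg_right ((Finset.single_le_sum (f := fun a => ∑ b,
        |∑ i, (y - y0) i * c a i b (y0 + t • (y - y0))|) (fun _ _ => by positivity)
          (Finset.mem_univ a)).trans k) (norm_nonneg _)) 1 ⟨zero_le_one, le_rfl⟩
  simpa using congrFun this a

variable {M : Type} [Mfe n M] {A : Mu n M} {N : M → ℝ} {X : Fin n → M → ℝ}

/-- unique continuation -/
theorem uc (k : A.Kq N X) (hU : A.U = {x | 0 < A.D.F x}) {x0 : M} (h0 : 0 < A.D.F x0)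
    (z0 : ∀ᶠ z in 𝓝 x0, N z = 0) (z1 : ∀ᶠ z in 𝓝 x0, ∀ i, X i z = 0) {x : M} (hx : 0 < A.D.F x) :
    N x = 0 := by
  refine ((P366M.Y.A.conn n M _ A.D.dom).subset_of_closure_inter_subset (isOpen_setOf_eventually_nhds
    (p := fun z => N z = 0 ∧ ∀ i, X i z = 0)) ⟨x0, h0, z0.and z1⟩ ?_ hx).self_of_nhds.1
  rintro x ⟨c, p⟩
  have he := ch_mem x
  obtain ⟨r, r0, b⟩ := Metric.eventually_nhds_iff_ball.1 (ev_pt.1 ((open_U A).mem_nhds (hU ▸ p)))
  obtain ⟨_, ⟨y0, h0, rfl⟩, z⟩ := mem_closure_iff_nhds.1 c _ (image_nhds x (ball_mem_nhds _ r0))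
  have z' := (P366M.ev_iff he).1 z
  have a1 : loc (ch x) N =ᶠ[𝓝 y0] fun _ => 0 := z'.mono fun _ m => m.1
  have a2 : ∀ i, repV (ch x) X i =ᶠ[𝓝 y0] fun _ => 0 := fun i => z'.mono fun _ m => by
    simp [repV, m.2]
  have u := fun y hy => ucp (convex_ball _ r) (fun y hy a => (cd_jet (k _ he y (b y hy))
    a).differentiableAt (by simp)) (lj_jet (A.D.met.rep he) (A.D.smK _ he) (fun j => by
      rw [← repC_mom A.D.met he A.D.smK]
      exact A.D.met.sm_mom A.D.smK _ he j) isOpen_ball fun y hy => k _ he y (b y hy)) h0 (y := y) hy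
    fun a => by
      rcases a with ⟨_ | l, _ | i⟩
      exacts [a1.eq_of_nhds, (P366Z.pd_congr a1 i).trans (P366Z.pd_const ..), (a2 l).eq_of_nhds,
        (P366Z.pd_congr (a2 l) i).trans (P366Z.pd_const ..)]
  refine ev_pt.2 (Filter.mem_of_superset (ball_mem_nhds _ r0) fun y hy =>
    ⟨u y hy (none, none), fun i => ?_⟩)
  have e := (repV_eq (ch x) X y).symm.trans (funext fun l => u y hy (some l, none))
  have := congrArg (J (ch x) y).mulVec e
  rw [Matrix.mulVec_mulVec, J_mul_inv he, Matrix.one_mulVec] at this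
  simpa [Matrix.mulVec, dotProduct] using congrFun this i

/-- **CPOS** -/
theorem cpos (hC : P366K.C.CONF) (hR : REP) : CPOS := by
  intro n M _ A hA N X h k V G K
  have H := hA.mm
  have Q := hA.eqc
  have := H.fα
  have := H.fβ
  have := H.fη
  have n3 : (3 : ℝ) ≤ n := by exact_mod_cast Q.n3
  refine H.c0.lt_of_ne fun c0 => ?_
  have b0 : A.β = 0 := by simpa [← c0, measureReal_eq_zero_iff] using H.mass
  obtain ⟨q, ρ, NE, XE, -, B, C, oN, oX⟩ := ex_asy hC hR hA G K
  simp only [← c0, zero_mul, neg_zero] at oN oX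
  have : Nontrivial (E n) := Module.nontrivial_of_finrank_pos (R := ℝ) (by
    rw [finrank_euclideanSpace_fin]; linarith [Q.n3])
  obtain ⟨y, ⟨r, -⟩, u, z⟩ := ((far A.D).and ((far_U' hA).and (P366EN.ev_ev (B.zero (far_Kq hA K)
    (by linarith [Q.n3]) oN oX)))).exists
  have N0 : EqOn N (fun _ => 0) {x | 0 ≤ A.D.F x} := EqOn.of_subset_closure (fun x hx => uc K
    (Set.ext fun x => ⟨fun m => m.1, fun m => ⟨m, univ, univ_mem, by simp [b0]⟩⟩) u.1
      ((ev_ye r.le).2 (z.mono fun _ m => m.1)) ((ev_ye r.le).2 (z.mono fun _ m => m.2)) hx)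
    (P366F.contOn_of fun x hx => (G.lip _ (ch_mem x)).1.continuousOn _ (by simpa using hx))
    continuousOn_const (fun x (m : 0 < A.D.F x) => m.le) fun x m => Y.A.conn_clo A.D.dom.1 m (A.D.dom.2.1 x)
  have a0 : A.α = 0 := by
    have := (G.rep (fun x => (P366K.wt A.ε x)⁻¹) (fun _ _ => 0) ((cont_wt _).inv₀ fun x => (wt_pos _ x).ne')
      (fun e _ i => ContDiff.sum fun _ _ => by simp only [mul_zero]; exact contDiff_const) ⟨1, fun x _ => ⟨by
        rw [abs_of_pos (inv_pos.2 (wt_pos _ x)), mul_inv_cancel₀ (wt_pos _ x).ne'],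
        by simp [covNorm]⟩⟩).2
    rw [setIntegral_eq_zero_of_forall_eq_zero fun x m => by simp [N0 m]] at this
    simpa [(wt_pos _ _).ne', measureReal_eq_zero_iff] using this
  have e0 : A.η = 0 := by
    have s : Smooth fun x => cut ρ x * A.D.F x := CD.mul (sm_cut ρ) A.D.dom.1
    have i := H.id _ _ _ _ _ (var_cf (R := 2 * ρ) s (fun x m => by rw [cut_zero C.pos m, zero_mul]) A.ε)
    rw [integral_congr_ae (g := fun x => (n - 1) * (cut ρ x * gn A.D.g A.D.F x)) (H.sη.mono
      fun x m => ?_), integral_const_mul] at i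
    · have j : ∫ x, cut ρ x * gn A.D.g A.D.F x ∂A.η = 0 := by
        simpa [a0, b0, ← c0, show (n - 1 : ℝ) ≠ 0 by linarith] using i
      rw [integral_eq_zero_iff_of_nonneg (fun x => mul_nonneg (cut_nonneg ρ x) (gn_nonneg ..))
        (((sm_cut ρ).cont.mul (A.D.met.cont_gn A.D.dom.1.one)).integrable_of_hasCompactSupport
          (supp_cut C.pos).mul_right)] at j
      refine ae_eq_bot.1 (eventually_false_iff_eq_bot.1 ((j.and H.sη).mono fun x m => ?_))
      obtain ⟨i, e⟩ := A.D.dom.2.1 x m.2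
      have := Real.sqrt_pos.2 (A.D.met.up_pos x (ξ := fun i => pd i A.D.F x) fun z => e (congrFun z i))
      have t := m.1
      simp only [cut_one (C.lt m.2.le).le, one_mul] at t
      exact this.ne' t
    have t : (fun x => cut ρ x * A.D.F x) =ᶠ[𝓝 x] A.D.F := (cut_ev_in (C.lt m.le)).mono fun _ e => by
      simp only [e, one_mul]
    simp only [(cf hC hR s x).2.2 (A.D.dom.2.1 x m), Q.mar x m, mul_zero, sub_zero, pd_congr t,
      cut_one (C.lt m.le).le, one_mul, P366M.nrm, div_mul_eq_mul_div, ← Finset.sum_div]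
    rw [gn_eq_covNorm, covNorm, ← Real.div_sqrt]
    simp only [Finset.sum_mul, Real.div_sqrt, mul_right_comm]
  have := H.id _ _ _ _ _ V
  rcases H.ne with m | m | m | m
  exacts [m a0, m e0, m.ne c0, m.ne' (by simpa [a0, b0, e0, ← c0] using this)]

end Vale.Agent.P366K3
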