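import Vale.Agent.P366Z.Calc
import Mathlib.MeasureTheory.Integral.IntervalIntegral.DistLEIntegral

/-!
# P366K3: asymptotics of solutions of a system of finite type in an end
-/

set_option linter.all false

open Set Filter Topology Metric Asymptotics Bornology MeasureTheory

noncomputable section

namespace Vale.Agent.P366K3

variable {V W : Type} [NormedAddCommGroup V] [NormedSpace ℝ V] [NormedAddCommGroup W]
  [NormedSpace ℝ W] {f : V → W} {R C s : ℝ}

theorem ray_d {y : V} {t : ℝ} (h : DifferentiableAt ℝ f (t • y)) :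
    HasDerivAt (fun t : ℝ => f (t • y)) (fderiv ℝ f (t • y) y) t := by
  have := h.hasFDerivAt.comp_hasDerivAt t ((hasDerivAt_id t).smul_const y)
  rwa [one_smul] at this

theorem ray_gt {y : V} {t : ℝ} (hy : R < ‖y‖) (ht : 1 ≤ t) : R < ‖t • y‖ := by
  rw [norm_smul, Real.norm_of_nonneg (by linarith)]
  nlinarith [norm_nonneg y]

/-- The variation along a ray. -/
theorem ray_le (hs : s ≠ 0) {y : V} (y0 : 0 < ‖y‖) {t : ℝ} (ht : 1 ≤ t) (h : ∀ τ ∈ Icc 1 t,
    DifferentiableAt ℝ f (τ • y) ∧ ‖fderiv ℝ f (τ • y)‖ ≤ C * ‖τ • y‖ ^ (s - 1)) :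
    ‖f (t • y) - f y‖ ≤ C / s * ‖y‖ ^ s * (t ^ s - 1) := by
  have d := fun τ (k : τ ∈ Icc 1 t) => (ray_d (h τ k).1).sub_const (f y)
  have b := fun τ (k : τ ∈ Icc 1 t) => ((Real.hasDerivAt_rpow_const (p := s)
    (.inl (one_pos.trans_le k.1).ne')).sub_const 1).const_mul (C / s * ‖y‖ ^ s)
  refine image_norm_le_of_norm_deriv_right_le_deriv_boundary'
    (fun τ k => (d τ k).continuousAt.continuousWithinAt)
    (fun τ k => (d τ (Ico_subset_Icc_self k)).hasDerivWithinAt) (by simp)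
    (fun τ k => (b τ k).continuousAt.continuousWithinAt)
    (fun τ k => (b τ (Ico_subset_Icc_self k)).hasDerivWithinAt) (fun τ k => ?_) ⟨ht, le_rfl⟩
  have τ0 := one_pos.trans_le k.1
  refine ((fderiv ℝ f _).le_opNorm y).trans ((mul_le_mul_of_nonneg_right
    (h τ (Ico_subset_Icc_self k)).2 y0.le).trans_eq ?_)
  rw [norm_smul, Real.norm_of_nonneg τ0.le, Real.mul_rpow τ0.le y0.le, Real.rpow_sub_one y0.ne']
  field_simp

/-- A function whose derivative decays faster than the inverse radius has a limit. -/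
theorem lim [CompleteSpace W] (hV : 1 < Module.rank ℝ V) (R0 : 0 ≤ R) (hs : 0 < s) (c0 : 0 ≤ C)
    (h : ∀ y, R < ‖y‖ → DifferentiableAt ℝ f y ∧ ‖fderiv ℝ f y‖ ≤ C * ‖y‖ ^ (-s - 1)) :
    ∃ f0, ∀ y, R < ‖y‖ → ‖f y - f0‖ ≤ C / s * ‖y‖ ^ (-s) := by
  have a : ∀ y, R < ‖y‖ → ∀ t : ℝ, 1 ≤ t → ‖f (t • y) - f y‖ ≤ C / s * ‖y‖ ^ (-s) := by
    intro y hy t ht
    refine (ray_le (neg_ne_zero.2 hs.ne') (R0.trans_lt hy) ht
      fun τ k => h _ (ray_gt hy k.1)).trans ?_
    have := mul_nonneg (mul_nonneg (div_nonneg c0 hs.le) (Real.rpow_nonneg (norm_nonneg y) (-s)))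
      (Real.rpow_nonneg (zero_le_one.trans ht) (-s))
    rw [div_neg]
    linarith
  have z : ∀ c : ℝ, Tendsto (fun t : ℝ => c * t ^ (-s)) atTop (𝓝 0) := fun c => by
    simpa using (tendsto_rpow_neg_atTop hs).const_mul c
  have l : ∀ y, R < ‖y‖ → ∃ L, Tendsto (fun k : ℕ => f (((k : ℝ) + 1) • y)) atTop (𝓝 L) := by
    intro y hy
    have y0 := R0.trans_lt hy
    refine cauchySeq_tendsto_of_complete (cauchySeq_of_le_tendsto_0'
      (fun k : ℕ => C / s * ‖y‖ ^ (-s) * ((k : ℝ) + 1) ^ (-s)) (fun k m e => ?_)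
      ((z _).comp (tendsto_atTop_add_const_right _ 1 tendsto_natCast_atTop_atTop)))
    have k0 : (0 : ℝ) < k + 1 := by positivity
    have := a _ (ray_gt hy (t := k + 1) (by simp)) ((m + 1) / (k + 1))
      ((one_le_div k0).2 (by simpa using e))
    rw [smul_smul, div_mul_cancel₀ _ k0.ne', norm_smul, Real.norm_of_nonneg k0.le,
      Real.mul_rpow k0.le y0.le] at this
    rw [dist_comm, dist_eq_norm]
    linarith
  choose! L hL using l
  have b : ∀ y, R < ‖y‖ → ‖L y - f y‖ ≤ C / s * ‖y‖ ^ (-s) := fun y hy =>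
    le_of_tendsto' ((hL y hy).sub_const _).norm fun k => a y hy _ (by simp)
  have c : ∀ y y', R < ‖y‖ → R < ‖y'‖ → ‖y' - y‖ ≤ ‖y‖ / 2 → L y' = L y := fun y y' h1 h2 h3 => by
    have y0 := R0.trans_lt h1
    refine eq_of_sub_eq_zero (tendsto_nhds_unique ((hL y' h2).sub (hL y h1))
      (squeeze_zero_norm' ?_ ((z (C * (‖y‖ / 2) ^ (-s))).comp
        (tendsto_atTop_add_const_right _ 1 tendsto_natCast_atTop_atTop))))
    filter_upwards [eventually_ge_atTop 1] with k k1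
    have k2 : (2 : ℝ) ≤ k + 1 := by
      have : (1 : ℝ) ≤ k := by exact_mod_cast k1
      linarith
    generalize hk : (k : ℝ) + 1 = t at *
    have t0 : 0 < t := by linarith
    have p : 0 < t * (‖y‖ / 2) := by positivity
    have e : ∀ x ∈ closedBall (t • y) (t * (‖y‖ / 2)), t * (‖y‖ / 2) ≤ ‖x‖ := fun x m => by
      have := norm_sub_norm_le (t • y) x
      rw [mem_closedBall, dist_comm, dist_eq_norm] at m
      rw [norm_smul, Real.norm_of_nonneg t0.le] at this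
      linarith
    have e' : ∀ x ∈ closedBall (t • y) (t * (‖y‖ / 2)), R < ‖x‖ := fun x m => by
      nlinarith [e x m]
    have n : ‖t • y' - t • y‖ ≤ t * (‖y‖ / 2) := by
      rw [← smul_sub, norm_smul, Real.norm_of_nonneg t0.le]
      exact mul_le_mul_of_nonneg_left h3 t0.le
    refine ((convex_closedBall _ _).norm_image_sub_le_of_norm_fderiv_le
      (C := C * (t * (‖y‖ / 2)) ^ (-s - 1)) (fun x m => (h x (e' x m)).1)
      (fun x m => (h x (e' x m)).2.trans (mul_le_mul_of_nonneg_left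
        (Real.rpow_le_rpow_of_nonpos p (e x m) (by linarith)) c0)) (mem_closedBall_self p.le)
      (mem_closedBall_iff_norm.2 n)).trans ((mul_le_mul_of_nonneg_left n (by positivity)).trans_eq ?_)
    simp only [Function.comp, hk]
    rw [Real.rpow_sub_one p.ne', Real.mul_rpow t0.le (by positivity)]
    field_simp
  have P : IsPreconnected {y : V | R < ‖y‖} := by
    have := (isPreconnected_Ioi (a := R)).prod (isPreconnected_sphere hV (0 : V) 1) |>.image
      (fun p : ℝ × V => p.1 • p.2) (by fun_prop)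
    refine this.subset_closure ?_ (subset_closure.trans' fun y hy => ?_)
    · rintro _ ⟨p, ⟨h1, h2⟩, rfl⟩
      rw [mem_sphere_zero_iff_norm] at h2
      simpa [norm_smul, h2] using lt_of_lt_of_le h1 (le_abs_self _)
    · have y0 := (R0.trans_lt hy).ne'
      exact ⟨(‖y‖, ‖y‖⁻¹ • y), ⟨hy, by simp [norm_smul, y0]⟩, by simp [smul_smul, y0]⟩
  haveI := Subtype.preconnectedSpace P
  have lc : IsLocallyConstant fun y : {y : V | R < ‖y‖} => L y :=
    (IsLocallyConstant.iff_eventually_eq _).2 fun y => by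
      filter_upwards [(show ContinuousAt (fun x : {y : V | R < ‖y‖} => ‖x.1 - y.1‖) y by
        fun_prop).eventually_le_const (by simpa using R0.trans_lt y.2 : ‖y.1 - y.1‖ < ‖y.1‖ / 2)]
        with x k using c _ _ y.2 x.2 k
  by_cases ne : ∃ y0 : V, R < ‖y0‖
  · obtain ⟨y0, h0⟩ := ne
    exact ⟨L y0, fun y hy => by
      rw [← norm_neg, neg_sub, lc.apply_eq_of_preconnectedSpace ⟨y0, h0⟩ ⟨y, hy⟩]; exact b y hy⟩
  · exact ⟨0, fun y hy => (ne ⟨y, hy⟩).elim⟩

theorem ev_iff {P : V → Prop} : (∀ᶠ y in cobounded V, P y) ↔ ∃ R, 1 ≤ R ∧ ∀ y, R < ‖y‖ → P y := by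
  rw [← comap_norm_atTop, eventually_comap, eventually_atTop]
  exact ⟨fun ⟨R, h⟩ => ⟨max R 1, le_max_right _ _, fun y k => h _ ((le_max_left _ _).trans k.le) y rfl⟩,
    fun ⟨R, _, h⟩ => ⟨R + 1, fun b k y e => h y (by linarith)⟩⟩

/-- `f` grows at most like the power `s` of the radius -/
def Bo (s : ℝ) (f : V → W) : Prop := ∃ C, 0 ≤ C ∧ ∀ᶠ y in cobounded V, ‖f y‖ ≤ C * ‖y‖ ^ s

theorem Bo.mono {s' : ℝ} (h : Bo s f) (e : s ≤ s') : Bo s' f :=
  let ⟨C, c0, k⟩ := h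
  ⟨C, c0, (k.and (ev_iff.2 ⟨1, le_rfl, fun _ e => e⟩)).mono fun _ m => m.1.trans
    (mul_le_mul_of_nonneg_left (Real.rpow_le_rpow_of_exponent_le m.2.le e) c0)⟩

theorem Bo.tend (h : Bo (-s) f) (hs : 0 < s) : Tendsto f (cobounded V) (𝓝 0) :=
  let ⟨C, _, k⟩ := h
  squeeze_zero_norm' k (by
    simpa using ((tendsto_rpow_neg_atTop hs).comp tendsto_norm_cobounded_atTop).const_mul C)

theorem Bo.lim [CompleteSpace W] (hV : 1 < Module.rank ℝ V) (hs : 0 < s)
    (d : ∀ᶠ y in cobounded V, DifferentiableAt ℝ f y) (h : Bo (-s - 1) (fderiv ℝ f)) :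
    ∃ f0, Bo (-s) fun y => f y - f0 :=
  let ⟨C, c0, k⟩ := h
  let ⟨R, r, e⟩ := ev_iff.1 (d.and k)
  let ⟨f0, m⟩ := P366K3.lim hV (zero_le_one.trans r) hs c0 e
  ⟨f0, C / s, div_nonneg c0 hs.le, ev_iff.2 ⟨R, r, m⟩⟩

theorem Bo.lim0 [CompleteSpace W] (hV : 1 < Module.rank ℝ V) (hs : 0 < s)
    (d : ∀ᶠ y in cobounded V, DifferentiableAt ℝ f y) (h : Bo (-s - 1) (fderiv ℝ f))
    (z : Tendsto f (cobounded V) (𝓝 0)) : Bo (-s) f := by
  haveI : Nontrivial V := rank_pos_iff_nontrivial.1 (zero_lt_one.trans hV)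
  obtain ⟨f0, k⟩ := h.lim hV hs d
  have := tendsto_nhds_unique (k.tend hs) (z.sub_const f0)
  rw [zero_sub, eq_comm, neg_eq_zero] at this
  simpa [this] using k

theorem ray_to {y : V} (R0 : 0 < R) (h : R ≤ ‖y‖) : ∃ y0 : V, ‖y0‖ = R ∧ ∃ t : ℝ, 1 ≤ t ∧ y = t • y0 :=
  have y0 := R0.trans_le h
  ⟨(R / ‖y‖) • y, by rw [norm_smul, Real.norm_of_nonneg (by positivity), div_mul_cancel₀ _ y0.ne'],
    ‖y‖ / R, (one_le_div R0).2 h, by rw [smul_smul, div_mul_div_cancel₀ R0.ne', div_self y0.ne',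
      one_smul]⟩

variable [FiniteDimensional ℝ V]

theorem Bo.gro (hs : 0 < s) (d : ∀ᶠ y in cobounded V, DifferentiableAt ℝ f y)
    (h : Bo (s - 1) (fderiv ℝ f)) : Bo s f := by
  obtain ⟨C, c0, k⟩ := h
  obtain ⟨R, r, e⟩ := ev_iff.1 (d.and k)
  obtain ⟨B, hB⟩ := (isCompact_sphere (0 : V) (R + 1)).exists_bound_of_continuousOn (f := f)
    fun y m => (e y (by rw [mem_sphere_zero_iff_norm.1 m]; linarith)).1.continuousAt.continuousWithinAt
  refine ⟨|B| + C / s, by positivity, ev_iff.2 ⟨R + 1, by linarith, fun y hy => ?_⟩⟩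
  obtain ⟨y0, n, t, t1, rfl⟩ := ray_to (by linarith) hy.le
  have a := ray_le hs.ne' (y := y0) (by linarith) t1 fun τ m => e _ (ray_gt (by linarith) m.1)
  have b := Real.one_le_rpow (show 1 ≤ ‖t • y0‖ by linarith) hs.le
  have c := (hB y0 (mem_sphere_zero_iff_norm.2 n)).trans
    ((le_abs_self B).trans (le_mul_of_one_le_right (abs_nonneg B) b))
  have := mul_nonneg (div_nonneg c0 hs.le) (Real.rpow_nonneg (norm_nonneg y0) s)
  rw [norm_smul, Real.norm_of_nonneg (by linarith), Real.mul_rpow (by linarith) (norm_nonneg _)] at c ⊢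
  nlinarith [norm_le_norm_sub_add (f (t • y0)) (f y0)]

/-- a system of finite type with decaying coefficients -/
structure Sys (q : ℝ) (u : V → W) : Prop where
  d1 : ∀ᶠ y in cobounded V, DifferentiableAt ℝ u y
  d2 : ∀ᶠ y in cobounded V, DifferentiableAt ℝ (fderiv ℝ u) y
  le : ∃ C, 0 ≤ C ∧ ∀ᶠ y in cobounded V, ‖fderiv ℝ (fderiv ℝ u) y‖ ≤
    C * (‖y‖ ^ (-q - 1) * (‖u y‖ / ‖y‖ + ‖fderiv ℝ u y‖))

variable {q : ℝ} {u : V → W}

theorem Sys.step (h : Sys q u) (h0 : Bo (s + 1) u) (h1 : Bo s (fderiv ℝ u)) :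
    Bo (s - q - 1) (fderiv ℝ (fderiv ℝ u)) := by
  obtain ⟨C, c0, k⟩ := h.le
  obtain ⟨A, a0, a⟩ := h0
  obtain ⟨B, b0, b⟩ := h1
  refine ⟨C * (A + B), by positivity, ?_⟩
  filter_upwards [k, a, b, ev_iff.2 ⟨1, le_rfl, fun _ e => one_pos.trans e⟩] with y k a b y0
  rw [Real.rpow_add_one y0.ne', ← mul_assoc, ← div_le_iff₀ y0] at a
  refine k.trans ((mul_le_mul_of_nonneg_left (mul_le_mul_of_nonneg_left (add_le_add a b)
    (by positivity)) c0).trans_eq ?_)
  rw [show s - q - 1 = -q - 1 + s by ring, Real.rpow_add y0]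
  ring

theorem small (hq : 0 < q) (c : ℝ) : ∀ᶠ R : ℝ in atTop, c * R ^ (-q) ≤ 1 / 2 :=
  ((tendsto_rpow_neg_atTop hq).const_mul c).eventually_le_const (by simp)

/-- Linear growth. -/
theorem Sys.lin (h : Sys q u) (hq : 0 < q) : Bo 0 (fderiv ℝ u) := by
  obtain ⟨C, c0, k⟩ := h.le
  obtain ⟨R, r, e⟩ := ev_iff.1 ((h.d1.and h.d2).and k)
  obtain ⟨ρ, h1, h2⟩ := ((small hq (2 * (C / q))).and (eventually_gt_atTop R)).exists
  have ρ1 := r.trans_lt h2
  have ρ0 := one_pos.trans ρ1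
  have ct : ContinuousOn (fun y => ‖u y‖ / ‖y‖ + ‖fderiv ℝ u y‖) {y | ρ ≤ ‖y‖} := fun y m =>
    (((e y (h2.trans_le m)).1.1.continuousAt.norm.div continuous_norm.continuousAt
      (ρ0.trans_le m).ne').add (e y (h2.trans_le m)).1.2.continuousAt.norm).continuousWithinAt
  obtain ⟨B, hB⟩ := (isCompact_sphere (0 : V) ρ).bddAbove_image
    (ct.mono fun y m => (mem_sphere_zero_iff_norm.1 m).ge)
  refine ⟨4 * |B|, by positivity, ev_iff.2 ⟨ρ, ρ1.le, fun x hx => ?_⟩⟩
  obtain ⟨y, m, hy⟩ := ((isCompact_closedBall (0 : V) ‖x‖).inter_left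
    (isClosed_le continuous_const continuous_norm : IsClosed {y : V | ρ ≤ ‖y‖})).exists_isMaxOn
    ⟨x, hx.le, by simp⟩ (ct.mono inter_subset_left)
  obtain ⟨y0, n, t, t1, rfl⟩ := ray_to ρ0 m.1
  generalize hM : ‖u (t • y0)‖ / ‖t • y0‖ + ‖fderiv ℝ u (t • y0)‖ = M at hy
  have M0 : 0 ≤ M := by rw [← hM]; positivity
  have g : ∀ τ ∈ Icc 1 t, R < ‖τ • y0‖ := fun τ k => ray_gt (n ▸ h2) k.1
  have b0 : ‖u y0‖ / ‖y0‖ + ‖fderiv ℝ u y0‖ ≤ |B| :=
    (hB ⟨y0, mem_sphere_zero_iff_norm.2 n, rfl⟩).trans (le_abs_self B)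
  have a : ∀ τ ∈ Icc 1 t, ‖fderiv ℝ u (τ • y0)‖ ≤ ‖fderiv ℝ u y0‖ + M / 4 := fun τ k => by
    have := ray_le (C := C * M) (neg_ne_zero.2 hq.ne') (n ▸ ρ0) k.1 fun σ j => by
      have j' : σ ∈ Icc 1 t := ⟨j.1, j.2.trans k.2⟩
      refine ⟨(e _ (g σ j')).1.2, (e _ (g σ j')).2.trans ?_⟩
      rw [mul_assoc, mul_comm M]
      refine mul_le_mul_of_nonneg_left (mul_le_mul_of_nonneg_left (le_of_le_of_eq
        (hy ⟨?_, mem_closedBall_zero_iff.2 (le_trans ?_ (mem_closedBall_zero_iff.1 m.2))⟩) hM)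
        (by positivity)) c0 <;> simp only [mem_setOf, norm_smul, n] <;>
        rw [Real.norm_of_nonneg (by linarith [j.1])]
      · nlinarith [j.1]
      · rw [Real.norm_of_nonneg (by linarith)]
        nlinarith [j'.2]
    have p := mul_nonneg (mul_nonneg (mul_nonneg (div_nonneg c0 hq.le) M0) (Real.rpow_nonneg ρ0.le (-q)))
      (Real.rpow_nonneg (zero_le_one.trans k.1) (-q))
    rw [n, div_neg, mul_div_right_comm] at this
    nlinarith [norm_le_norm_sub_add (fderiv ℝ u (τ • y0)) (fderiv ℝ u y0)]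
  have b := ray_le (f := u) (C := ‖fderiv ℝ u y0‖ + M / 4) one_ne_zero (n ▸ ρ0) t1 fun τ k =>
    ⟨(e _ (g τ k)).1.1, by simpa using a τ k⟩
  have c : ‖u (t • y0)‖ / ‖t • y0‖ ≤ ‖u y0‖ / ‖y0‖ + ‖fderiv ℝ u y0‖ + M / 4 := by
    have e1 : ‖u y0‖ = ‖u y0‖ / ρ * ρ := (div_mul_cancel₀ _ ρ0.ne').symm
    have p : 0 ≤ ‖u y0‖ / ρ := by positivity
    rw [norm_smul, Real.norm_of_nonneg (by linarith), n, div_le_iff₀ (by positivity)]
    simp only [div_one, Real.rpow_one, n] at b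
    nlinarith [norm_le_norm_sub_add (u (t • y0)) (u y0), norm_nonneg (fderiv ℝ u y0),
      mul_nonneg (mul_nonneg p ρ0.le) (sub_nonneg.2 t1), mul_nonneg (norm_nonneg (fderiv ℝ u y0)) ρ0.le,
      mul_nonneg M0 ρ0.le]
  have := hy ⟨hx.le, by simp⟩
  simp only [mem_setOf, hM] at this
  have p : 0 ≤ ‖u x‖ / ‖x‖ := by positivity
  have p' : 0 ≤ ‖u y0‖ / ‖y0‖ := by positivity
  rw [Real.rpow_zero, mul_one]
  linarith [a t ⟨t1, le_rfl⟩]

variable [CompleteSpace W]

/-- **ASY**: a solution with values in a pointed cone has a limit. -/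
theorem Sys.asy (h : Sys q u) (hV : 1 < Module.rank ℝ V) (hq : 1 / 2 < q) (φ : W →L[ℝ] ℝ)
    (hφ : ∀ᶠ y in cobounded V, ‖u y‖ ≤ φ (u y)) : ∃ u0, Bo (-q) (fun y => u y - u0) ∧
      Bo (-q - 1) (fderiv ℝ u) ∧ Bo (-q - 2) (fderiv ℝ (fderiv ℝ u)) := by
  haveI : Nontrivial V := rank_pos_iff_nontrivial.1 (zero_lt_one.trans hV)
  obtain ⟨p, p1, p2, p3⟩ : ∃ p, 1 / 2 < p ∧ p ≤ q ∧ p < 1 :=
    ⟨min q (3 / 4), lt_min hq (by norm_num), min_le_left _ _, (min_le_right _ _).trans_lt (by norm_num)⟩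
  have a1 := h.lin (by linarith)
  have a0 : Bo (0 + 1) u := Bo.gro (by simp) h.d1 (by simpa using a1)
  obtain ⟨L, b1⟩ := ((h.step a0 a1).mono (s' := -p - 1) (by linarith)).lim hV (by linarith) h.d2
  have b0 : Bo (-p + 1) fun y => u y - L y := Bo.gro (by linarith)
    (h.d1.mono fun y e => e.sub L.differentiableAt) (by
      obtain ⟨C, c0, k⟩ := b1
      refine ⟨C, c0, (k.and h.d1).mono fun y e => ?_⟩
      rw [fderiv_fun_sub e.2 L.differentiableAt, L.fderiv, add_sub_cancel_right]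
      exact e.1)
  have z : ∀ y, y ≠ 0 → ‖L y‖ ≤ φ (L y) := fun y y0 => by
    obtain ⟨C, c0, k⟩ := b0
    have n := norm_pos_iff.2 y0
    have T : Tendsto (fun t : ℝ => t • y) atTop (cobounded V) := by
      rw [← tendsto_norm_atTop_iff_cobounded]
      exact (tendsto_id.atTop_mul_const n).congr' ((eventually_ge_atTop 0).mono fun t e => by
        simp [norm_smul, abs_of_nonneg e])
    refine le_of_sub_nonpos (ge_of_tendsto (f := fun t : ℝ => (1 + ‖φ‖) * (C * ‖y‖ ^ (-p + 1)) * t ^ (-p))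
      (x := atTop) (by simpa using (tendsto_rpow_neg_atTop (y := p) (by linarith)).const_mul _) ?_)
    filter_upwards [T.eventually k, T.eventually hφ, eventually_gt_atTop 0] with t k1 k2 t0
    rw [norm_smul, Real.norm_of_nonneg t0.le, Real.mul_rpow t0.le n.le, Real.rpow_add_one t0.ne'] at k1
    have e1 := norm_le_norm_sub_add (L (t • y)) (u (t • y))
    have e2 := (le_abs_self _).trans (φ.le_opNorm (u (t • y) - L (t • y)))
    rw [norm_sub_rev] at e1
    rw [map_sub] at e2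
    simp only [map_smul, norm_smul, Real.norm_of_nonneg t0.le, smul_eq_mul] at e1 e2 k1
    refine le_of_mul_le_mul_left ?_ t0
    nlinarith [mul_le_mul_of_nonneg_left k1 (norm_nonneg φ)]
  have L0 : L = 0 := ContinuousLinearMap.ext fun y => by
    rcases eq_or_ne y 0 with rfl | y0
    · simp
    · have := z (-y) (neg_ne_zero.2 y0)
      simp only [map_neg, norm_neg] at this
      exact norm_le_zero_iff.1 (by linarith [z y y0])
  simp only [L0, ContinuousLinearMap.zero_apply, sub_zero] at b0 b1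
  have t := b1.tend (by linarith)
  have c1 := ((h.step b0 b1).mono (s' := -(2 * p) - 1) (by linarith)).lim0 hV (by linarith) h.d2 t
  obtain ⟨u0, c0⟩ := Bo.lim (s := 2 * p - 1) hV (by linarith) h.d1 (c1.mono (by linarith))
  have t0 := c0.tend (by linarith)
  have d0 : Bo (-1 + 1) u := ⟨‖u0‖ + 1, by positivity, (t0.norm.eventually_le_const
    (by simp : ‖(0 : W)‖ < 1)).mono fun y e => by
      simpa using (norm_le_norm_sub_add (u y) u0).trans (by linarith)⟩
  have d2 := h.step d0 (c1.mono (by linarith))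
  have d1 := Bo.lim0 (s := q + 1) hV (by linarith) h.d2 (d2.mono (by linarith)) t
  refine ⟨u0, Bo.lim0 hV (by linarith) (h.d1.mono fun y e => e.sub_const _) ?_ t0,
    d1.mono (by linarith), d2.mono (by linarith)⟩
  rw [show fderiv ℝ (fun y => u y - u0) = fderiv ℝ u from funext fun _ => fderiv_sub_const _]
  exact d1.mono (by linarith)

/-- Uniqueness from infinity. -/
theorem Sys.zero (h : Sys q u) (hV : 1 < Module.rank ℝ V) (hq : 0 < q) (h0 : Bo (-q) u)
    (h1 : Bo (-q - 1) (fderiv ℝ u)) : ∀ᶠ y in cobounded V, u y = 0 := by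
  haveI : Nontrivial V := rank_pos_iff_nontrivial.1 (zero_lt_one.trans hV)
  obtain ⟨C, c0, k⟩ := h.le
  obtain ⟨A, a0, a⟩ := h0.mono (s' := 0) (by linarith)
  obtain ⟨B, b0, b⟩ := h1.mono (s' := -1) (by linarith)
  obtain ⟨R, r, e⟩ := ev_iff.1 (((h.d1.and h.d2).and k).and ((a.and b).and
    (tendsto_norm_cobounded_atTop.eventually (small hq (C * (1 + 1 / q))))))
  have l : ∀ {X : Type} [NormedAddCommGroup X] [NormedSpace ℝ X] {f : V → X} {f0 : X} {c s : ℝ},
      0 < s → 0 ≤ c → Tendsto f (cobounded V) (𝓝 0) →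
      (∀ y, R < ‖y‖ → ‖f y - f0‖ ≤ c * ‖y‖ ^ (-s)) → f0 = 0 := fun s0 c0 z m => by
    simpa using tendsto_nhds_unique (Bo.tend ⟨_, c0, ev_iff.2 ⟨R, r, m⟩⟩ s0) (z.sub_const _)
  have i : ∀ k : ℕ, ∀ y, R < ‖y‖ →
      ‖u y‖ / ‖y‖ + ‖fderiv ℝ u y‖ ≤ (A + B) * (1 / 2) ^ k * ‖y‖⁻¹ := fun k => by
    induction k with
    | zero =>
      intro y m
      have y0 : 0 < ‖y‖ := by linarith
      obtain ⟨-, ⟨k1, k2⟩, -⟩ := e y m
      rw [Real.rpow_zero, mul_one] at k1
      rw [Real.rpow_neg_one] at k2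
      rw [pow_zero, mul_one, add_mul, div_eq_mul_inv]
      exact add_le_add (mul_le_mul_of_nonneg_right k1 (by positivity)) k2
    | succ k ih =>
      rw [pow_succ, ← mul_assoc]
      have M0 : 0 ≤ (A + B) * (1 / 2 : ℝ) ^ k := by positivity
      generalize (A + B) * (1 / 2 : ℝ) ^ k = M at *
      obtain ⟨f1, k1⟩ := lim (C := C * M) (s := q + 1) hV (zero_le_one.trans r) (by linarith)
        (by positivity) fun y m => ⟨(e y m).1.1.2, (e y m).1.2.trans ((mul_le_mul_of_nonneg_left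
          (mul_le_mul_of_nonneg_left (ih y m) (by positivity)) c0).trans_eq (by
            rw [show -(q + 1) - 1 = -q - 1 - 1 by ring,
              Real.rpow_sub_one (x := ‖y‖) (by linarith) (-q - 1)]; ring))⟩
      obtain rfl := l (by linarith) (by positivity) (Bo.tend (s := q + 1)
        (h1.mono (by linarith)) (by linarith)) k1
      have k2 : ∀ y, R < ‖y‖ → ‖fderiv ℝ u y‖ ≤ C * M * ‖y‖ ^ (-q - 1) := fun y m => by
        have := k1 y m
        rw [sub_zero, neg_add'] at this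
        exact this.trans (mul_le_mul_of_nonneg_right (div_le_self (by positivity) (by linarith))
          (by positivity))
      obtain ⟨f0, k0⟩ := lim (f := u) hV (zero_le_one.trans r) hq (by positivity)
        fun y m => ⟨(e y m).1.1.1, k2 y m⟩
      obtain rfl := l hq (by positivity) (h0.tend hq) k0
      intro y m
      have y0 : 0 < ‖y‖ := by linarith
      have k3 := k2 y m
      have k4 := mul_le_mul_of_nonneg_right (k0 y m) (inv_pos.2 y0).le
      have k5 := mul_le_mul_of_nonneg_right (e y m).2.2 (mul_nonneg M0 (inv_pos.2 y0).le)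
      rw [Real.rpow_sub_one y0.ne'] at k3
      rw [sub_zero] at k4
      simp only [div_eq_mul_inv] at *
      linarith
  refine ev_iff.2 ⟨R, r, fun y m => ?_⟩
  have y0 : 0 < ‖y‖ := by linarith
  have := ge_of_tendsto' (((tendsto_pow_atTop_nhds_zero_of_lt_one (r := (1 / 2 : ℝ)) (by norm_num)
    (by norm_num)).const_mul (A + B)).mul_const ‖y‖⁻¹) fun k => i k y m
  rw [mul_zero, zero_mul] at this
  have p : ‖u y‖ / ‖y‖ ≤ 0 := by linarith [norm_nonneg (fderiv ℝ u y)]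
  exact norm_le_zero_iff.1 (by simpa using (div_le_iff₀ y0).1 p)

end Vale.Agent.P366K3
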