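import Vale.Agent.P366K3.Geo

/-!
# P366K3: decay of jets, radial parts and fluxes, germs
-/

set_option linter.all false

open Set Filter Topology Metric Asymptotics MeasureTheory
open scoped ContDiff
open Vale.Agent.P366.Stmt Vale.Agent.P366Z
open Vale.Agent.P366RB (O2)
open Vale.Agent.P366XR (cT Vf)
open Vale.Agent.P366Y.C (rc)
open Vale.Agent.P366P (cd)
open Vale.Agent.P366EN (bo_iff o_sm ev_ev two ev_pos ev_pd)

noncomputable section

namespace Vale.Agent.P366K3

variable {n : ℕ} {q s t c : ℝ} {g K g' K' : Field n} {f h : E n → ℝ} {y : E n}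

/-- smooth near infinity -/
def Sf (f : E n → ℝ) : Prop := ∀ᶠ y in cocompact (E n), ContDiffAt ℝ ∞ f y

theorem Sf.pd (k : Sf f) (i : Fin n) : Sf (pd i f) := k.mono fun _ m => contDiffAt_pd m (by simp) i
theorem Sf.mul (k : Sf f) (l : Sf h) : Sf fun y => f y * h y := (k.and l).mono fun _ m => m.1.mul m.2
theorem Sf.add (k : Sf f) (l : Sf h) : Sf fun y => f y + h y := (k.and l).mono fun _ m => m.1.add m.2
theorem Sf.sub (k : Sf f) (l : Sf h) : Sf fun y => f y - h y := (k.and l).mono fun _ m => m.1.sub m.2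
theorem Sf.sum {F : Fin n → E n → ℝ} (k : ∀ i, Sf (F i)) : Sf fun y => ∑ i, F i y :=
  (eventually_all.2 k).mono fun _ m => ContDiffAt.sum fun i _ => m i
theorem sf_of (k : Smooth f) : Sf f := .of_forall fun _ => k.contDiffAt
theorem Sf.congr (k : Sf f) (e : h =ᶠ[cocompact (E n)] f) : Sf h :=
  (k.and (ev_ev e)).mono fun _ m => m.1.congr_of_eventuallyEq m.2
theorem Sf.df (k : Sf f) : ∀ᶠ y in cocompact (E n), DifferentiableAt ℝ f y :=
  k.mono fun _ m => diff2 (two m)

/-- decay with one derivative -/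
structure J1 (s : ℝ) (f : E n → ℝ) : Prop where
  sm : Sf f
  d0 : Dc s f
  d1 : ∀ i, Dc (s + 1) (pd i f)

/-- decay with two derivatives -/
structure J2 (s : ℝ) (f : E n → ℝ) : Prop extends J1 s f where
  d2 : ∀ i j, Dc (s + 2) (pd i (pd j f))

theorem J2.pd (k : J2 s f) (i : Fin n) : J1 (s + 1) (pd i f) :=
  ⟨k.sm.pd i, k.d1 i, fun j => (k.d2 j i).mono (by linarith)⟩

theorem j2_of (k : J1 s f) (l : ∀ i, J1 (s + 1) (pd i f)) : J2 s f :=
  ⟨k, fun i j => ((l j).d1 i).mono (by linarith)⟩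

theorem J1.mono (k : J1 s f) (e : t ≤ s) : J1 t f :=
  ⟨k.sm, k.d0.mono e, fun i => (k.d1 i).mono (by linarith)⟩

theorem J1.congr (k : J1 s f) (e : h =ᶠ[cocompact (E n)] f) : J1 s h :=
  ⟨k.sm.congr e, k.d0.congr e, fun i => (k.d1 i).congr (ev_pd e i)⟩

theorem J2.congr (k : J2 s f) (e : h =ᶠ[cocompact (E n)] f) : J2 s h :=
  j2_of (k.toJ1.congr e) fun i => (k.pd i).congr (ev_pd e i)

theorem J1.add (k : J1 s f) (l : J1 s h) : J1 s fun y => f y + h y :=
  ⟨k.sm.add l.sm, k.d0.add l.d0, fun i => ((k.d1 i).add (l.d1 i)).congr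
    ((k.sm.df.and l.sm.df).mono fun _ m => pd_add m.1 m.2 i)⟩

theorem J1.mul (k : J1 s f) (l : J1 t h) (e : q ≤ s + t) : J1 q fun y => f y * h y :=
  ⟨k.sm.mul l.sm, k.d0.mul l.d0 e, fun i => (((k.d1 i).mul l.d0 (by linarith)).add
    (k.d0.mul (l.d1 i) (by linarith))).congr
      ((k.sm.df.and l.sm.df).mono fun _ m => pd_mul m.1 m.2 i)⟩

theorem J2.mul (k : J2 s f) (l : J2 t h) (e : q ≤ s + t) : J2 q fun y => f y * h y :=
  j2_of (k.toJ1.mul l.toJ1 e) fun i => (((k.pd i).mul l.toJ1 (by linarith)).add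
    (k.toJ1.mul (l.pd i) (by linarith))).congr
      ((k.sm.df.and l.sm.df).mono fun _ m => pd_mul m.1 m.2 i)

theorem dc_const (c : ℝ) : Dc 0 fun _ : E n => c := bo_iff.1 (P366OC.bo_lim tendsto_const_nhds)

theorem dc_zero (e : ∀ᶠ y in cocompact (E n), f y = 0) : Dc s f :=
  (bo_iff.1 P366OC.bo_zero).congr e

theorem j1_const (c : ℝ) : J1 0 fun _ : E n => c :=
  ⟨sf_of contDiff_const, dc_const c, fun i => dc_zero (.of_forall (pd_const c i))⟩

theorem j2_const (c : ℝ) : J2 0 fun _ : E n => c :=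
  ⟨j1_const c, fun i j => dc_zero (.of_forall fun y => by rw [funext (pd_const c j), pd_const])⟩

theorem J1.cm (c : ℝ) (k : J1 s f) : J1 s fun y => c * f y := (j1_const c).mul k (zero_add _).ge
theorem J2.cm (c : ℝ) (k : J2 s f) : J2 s fun y => c * f y := (j2_const c).mul k (zero_add _).ge

theorem J1.sub (k : J1 s f) (l : J1 s h) : J1 s fun y => f y - h y :=
  (k.add (l.cm (-1))).congr (.of_forall fun y => by ring)

theorem J1.sum {F : Fin n → E n → ℝ} (k : ∀ i, J1 s (F i)) : J1 s fun y => ∑ i, F i y :=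
  ⟨.sum fun i => (k i).sm, .sum fun i => (k i).d0, fun j => (P366EN.Bo.sum fun i => (k i).d1 j).congr
    ((eventually_all.2 fun i => (k i).sm.df).mono fun _ m => pd_sum _ (fun i _ => m i) j)⟩

theorem j2_sub (k : O2 q c f) : J2 q fun y => f y - c := by
  have e : ∀ i, pd i (fun y => f y - c) = pd i f := fun i => funext fun _ => pd_sub_const c i
  exact ⟨⟨(o_sm k).mono fun _ m => m.sub contDiffAt_const, bo_iff.1 k.d0, fun i => e i ▸ o_1 k i⟩,
    fun i j => e j ▸ o_2 k i j⟩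

theorem j2_0 (hq : 0 < q) (k : O2 q c f) : J2 0 f :=
  ⟨⟨o_sm k, o_0 hq k, fun i => (o_1 k i).mono (by linarith)⟩, fun i j => (o_2 k i j).mono (by linarith)⟩

theorem dc_coord (i : Fin n) : Dc (-1) fun y : E n => y i := by
  simp only [P366EN.Bo, neg_neg, Real.rpow_one]
  exact IsBigO.of_bound' (.of_forall fun x => (AsyF.abs_coord x i).trans_eq (norm_norm x).symm)

theorem j1_coord (i : Fin n) : J1 (-1) fun y : E n => y i :=
  ⟨sf_of (contDiff_coord i), dc_coord i, fun j => ((dc_const _).congr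
    (.of_forall (pd_coord j i))).mono (by linarith)⟩

theorem ev_ne : ∀ᶠ y in cocompact (E n), y ≠ 0 := ev_pos.mono fun _ m => norm_pos_iff.1 m

theorem dc_pow (s : ℝ) : Dc (-s) fun y : E n => ‖y‖ ^ s := by
  simp only [P366EN.Bo, neg_neg]
  exact isBigO_refl _ _

theorem j1_pow (s : ℝ) : J1 (-s) fun y : E n => ‖y‖ ^ s :=
  ⟨ev_ne.mono fun _ m => contDiffAt_norm_rpow m s, dc_pow s, fun i =>
    (((dc_coord i).cm s).mul (dc_pow (s - 2)) (by linarith)).congr
      (ev_ne.mono fun _ m => pd_norm_rpow m s i)⟩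

theorem j2_pow (s : ℝ) : J2 (-s) fun y : E n => ‖y‖ ^ s :=
  j2_of (j1_pow s) fun i => (((j1_coord i).cm s).mul (j1_pow (s - 2)) (by linarith)).congr
    (ev_ne.mono fun _ m => pd_norm_rpow m s i)

/-! ### radial parts -/

/-- the radial part of `W` is `c r ^ (1 - n)` up to smaller terms -/
structure Rad (c : ℝ) (W : Vf n) : Prop where
  sm : ∀ i, Sf (W i)
  rd : ∃ a > 0, Dc (n - 2 + a) fun y => ∑ i, W i y * y i - c * ‖y‖ ^ (2 - n : ℝ)

variable {W W' : Vf n}

theorem Rad.near (k : Rad c W) (s : ∀ i, Sf (W' i)) (ha : 0 < q)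
    (e : ∀ i, Dc (n - 1 + q) fun y => W' i y - W i y) : Rad c W' := by
  obtain ⟨a, a0, k⟩ := k.rd
  refine ⟨s, min a q, lt_min a0 ha, ((k.mono (by linarith [min_le_left a q])).add
    (P366EN.Bo.sum fun i => (e i).mul (dc_coord i) (by linarith [min_le_right a q]))).congr
      (.of_forall fun y => ?_)⟩
  simp only [sub_mul, Finset.sum_sub_distrib]
  ring

theorem Rad.congr (k : Rad c W) (e : ∀ i, W' i =ᶠ[cocompact (E n)] W i) : Rad c W' :=
  k.near (fun i => (k.sm i).congr (e i)) one_pos fun i =>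
    dc_zero ((e i).mono fun _ m => sub_eq_zero.2 m)

theorem Rad.cm (k : Rad c W) (b : ℝ) : Rad (b * c) fun i y => b * W i y :=
  ⟨fun i => (sf_of contDiff_const).mul (k.sm i), let ⟨a, a0, k⟩ := k.rd
    ⟨a, a0, (k.cm b).congr (.of_forall fun y => by
      simp only [mul_sub, Finset.mul_sum, mul_assoc])⟩⟩

theorem rad_zero : Rad 0 (fun _ _ => 0 : Vf n) :=
  ⟨fun _ => sf_of contDiff_const, 1, one_pos, dc_zero (.of_forall fun y => by simp)⟩

theorem rad_pow : Rad (2 - n) fun i => pd i fun y : E n => ‖y‖ ^ (2 - n : ℝ) :=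
  ⟨fun i => (j1_pow _).sm.pd i, 1, one_pos, dc_zero (ev_pos.mono fun y m => by
    have : ‖y‖ ^ (2 - n : ℝ) = ‖y‖ ^ (2 - n - 2 : ℝ) * ∑ i, y i ^ 2 := by
      rw [← norm_sq_eq, ← Real.rpow_two, ← Real.rpow_add m, sub_add_cancel]
    simp only [pd_norm_rpow (norm_pos_iff.1 m)]
    rw [this, Finset.mul_sum, Finset.mul_sum, ← Finset.sum_sub_distrib]
    exact Finset.sum_eq_zero fun i _ => by ring)⟩

/-- the flux against the cut-off functions -/
theorem Rad.cut (k : Rad c W) (hn : 0 < n) :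
    Tendsto (fun r => ∫ y, ∑ i, pd i (cut r) y * W i y) atTop (𝓝 (-(c * omega n))) := by
  obtain ⟨a, a0, b⟩ := k.rd
  have s : ∀ i, Sf fun y => (∑ j, W j y * y j) * (y i * ‖y‖ ^ (-2 : ℝ)) := fun i =>
    (Sf.sum fun j => (k.sm j).mul (j1_coord j).sm).mul ((j1_coord i).sm.mul (j1_pow _).sm)
  choose Y hY e using fun i => P366EN.ext (s i)
  refine (P366EN.flux_lim hn hY a0 fun i => ((b.mul (((dc_coord i).mul (dc_pow (-2)) le_rfl))
    (by linarith)).congr (((e i).and ev_pos).mono fun y m => ?_))).congr' ?_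
  · simp only [m.1, sub_mul]
    rw [show (-n : ℝ) = 2 - n + -2 by ring, Real.rpow_add m.2]
    ring
  obtain ⟨R, hR⟩ := P366EN.ev_iff.1 ((eventually_all.2 e).and ev_pos)
  filter_upwards [eventually_gt_atTop R] with r hr
  refine integral_congr_ae (.of_forall fun y => ?_)
  rcases lt_or_ge ‖y‖ r with hy | hy
  · simp only [pd_cut_in hy, zero_mul, Finset.sum_const_zero]
  obtain ⟨m, p⟩ := hR y (hr.trans_le hy)
  have : ∑ i, y i * y i * ‖y‖ ^ (-2 : ℝ) = 1 := by
    simp only [← Finset.sum_mul, ← sq, ← norm_sq_eq]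
    rw [← Real.rpow_two, ← Real.rpow_add p]
    simp
  simp only [m, AsyF.pd_cut]
  generalize deriv Real.smoothTransition _ = d
  refine Eq.trans (b := -(d * 2 / r ^ 2) * (∑ j, W j y * y j) * ∑ i, y i * y i * ‖y‖ ^ (-2 : ℝ)) ?_ ?_
  · rw [Finset.mul_sum]
    exact Finset.sum_congr rfl fun i _ => by ring
  · rw [this, mul_one, Finset.mul_sum]
    exact Finset.sum_congr rfl fun i _ => by ring

/-- the flux through the spheres -/
theorem Rad.flx (k : Rad c W) (hn : 2 ≤ n) : Tendsto (flx W) atTop (𝓝 (c / (n - 1))) := by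
  obtain ⟨a, a0, C, b⟩ : ∃ a > (0 : ℝ), ∃ C, ∀ᶠ y in cocompact (E n), ‖∑ i, W i y * y i -
      c * ‖y‖ ^ (2 - n : ℝ)‖ ≤ C * ‖‖y‖ ^ (-((n : ℝ) - 2 + a))‖ := k.rd.imp fun _ m => ⟨m.1, m.2.bound⟩
  obtain ⟨R, hR⟩ := P366EN.ev_iff.1 (b.and (eventually_all.2 k.sm))
  have w := omega_pos (n := n) (by omega)
  have n2 : (2 : ℝ) ≤ n := by exact_mod_cast hn
  have : IsFiniteMeasure (vol n).toSphere := by rw [vol_eq]; infer_instance
  have w' : (vol n).toSphere.real univ = omega n := by simp [omega, sphInt, sph]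
  refine tendsto_sub_nhds_zero_iff.1 (squeeze_zero_norm' ?_ (by
    simpa using (tendsto_rpow_neg_atTop a0).const_mul (C / (n - 1))))
  filter_upwards [eventually_gt_atTop R, eventually_gt_atTop 0] with r r1 r0
  have e : ∀ θ : sphere (0 : E n) 1, ‖r • (θ : E n)‖ = r := fun θ => by
    rw [norm_smul, norm_eq_of_mem_sphere, mul_one, Real.norm_of_nonneg r0.le]
  have i1 : Integrable (fun θ : sphere (0 : E n) 1 => r ^ (n - 1) *
      ∑ i, W i (r • θ.1) * ((r • θ.1) i / len (r • θ.1))) (vol n).toSphere := by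
    simp only [len, e]
    refine Continuous.integrable_of_hasCompactSupport (continuous_const.mul (continuous_finsetSum _
      fun i _ => Continuous.mul (continuous_iff_continuousAt.2 fun θ => ContinuousAt.comp
        (f := fun θ : sphere (0 : E n) 1 => r • θ.1) ((hR _ ((e θ).symm ▸ r1)).2 i).continuousAt
        (by fun_prop)) (by fun_prop))) (HasCompactSupport.of_compactSpace _)
  have i2 := norm_integral_le_of_norm_le_const (μ := (vol n).toSphere) (C := C * r ^ (-a))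
    (f := fun θ : sphere (0 : E n) 1 => r ^ (n - 1) *
      ∑ i, W i (r • θ.1) * ((r • θ.1) i / len (r • θ.1)) - c) (.of_forall fun θ => by
    have := mul_le_mul_of_nonneg_left (hR _ ((e θ).symm ▸ r1)).1 (Real.rpow_nonneg r0.le (n - 2))
    rw [e, Real.norm_of_nonneg (r := r ^ _) (by positivity), mul_left_comm, ← Real.rpow_add r0,
      ← Real.norm_of_nonneg (r := r ^ (n - 2 : ℝ)) (by positivity), ← norm_mul, mul_sub,
      mul_left_comm, ← Real.rpow_add r0] at this
    simp only [len, e, ← mul_div_assoc, ← Finset.sum_div]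
    rw [← Real.rpow_natCast, Nat.cast_pred (by omega), mul_div_right_comm, ← Real.rpow_sub_one r0.ne',
      show (n - 1 - 1 : ℝ) = n - 2 by ring]
    rw [show (n : ℝ) - 2 + -(n - 2 + a) = -a by ring] at this
    simpa using this)
  rw [integral_sub i1 (integrable_const _), integral_const_mul, integral_const, w'] at i2
  rw [P366.Stmt.flx, sphInt, sph, ← mul_div_mul_right c _ w.ne', ← sub_div, norm_div,
    Real.norm_of_nonneg (r := _ * omega n) (by nlinarith), div_le_iff₀ (by nlinarith), mul_comm c]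
  have n1 : (n - 1 : ℝ) ≠ 0 := by linarith
  exact i2.trans_eq (by field_simp)

/-! ### germs -/

theorem pd_ev (e : K =ᶠ[𝓝 y] K') (k i j : Fin n) :
    pd k (fun z => K z i j) y = pd k (fun z => K' z i j) y :=
  pd_congr (e.mono fun z m => by simp only [m]) k

theorem cT_ev (e : g =ᶠ[𝓝 y] g') (e' : K =ᶠ[𝓝 y] K') (k i j : Fin n) :
    cT g K k i j y = cT g' K' k i j y := by
  simp only [cT, pd_ev e', chr_of_ev e, e'.eq_of_nhds]

theorem mom_ev (e : g =ᶠ[𝓝 y] g') (e' : K =ᶠ[𝓝 y] K') (j : Fin n) : mom g K j y = mom g' K' j y :=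
  Finset.sum_congr rfl fun i _ => Finset.sum_congr rfl fun k _ => congrArg₂ _
    (up_of_eq e.eq_of_nhds i k) (cT_ev e (K := momT g K) (K' := momT g' K') ((e.and e').mono
      fun z m => by funext a b; simp only [momT, tr, up_of_eq m.1, m.1, m.2]) k i j)

theorem mu_ev (e : g =ᶠ[𝓝 y] g') (e' : K y = K' y) : mu g K y = mu g' K' y := by
  simp only [mu, tr, normSq, scal_of_ev e, up_of_eq e.eq_of_nhds, e']

theorem kq_ev {N N' : E n → ℝ} {X X' : Vf n} (k : P366F.Kq g K N X y) (e : g =ᶠ[𝓝 y] g')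
    (e' : K =ᶠ[𝓝 y] K') (e1 : N =ᶠ[𝓝 y] N') (e2 : ∀ i, X i =ᶠ[𝓝 y] X' i) :
    P366F.Kq g' K' N' X' y := by
  have h1 : ∀ k i j c, pd c (chr g k i j) y = pd c (chr g' k i j) y := fun k i j c =>
    pd_congr (e.eventuallyEq_nhds.mono fun y hy => chr_of_ev hy k i j) c
  have a := k.kil
  have b := k.ee
  simp only [P366XR.Kid, P366XR.EE, hess, cd, rc, tr, P366RB.lo, h1, chr_of_ev e, cT_ev e e',
    mom_ev e e', up_of_eq e.eq_of_nhds, e.eq_of_nhds, e'.eq_of_nhds, e1.eq_of_nhds,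
    fun i => (e2 i).eq_of_nhds, pd_congr e1, fun i => pd_congr (e2 i),
    fun i => pd_congr (pd_congr_ev e1 i)] at a b
  exact ⟨k.smN.congr_of_eventuallyEq e1.symm, fun i => (k.smX i).congr_of_eventuallyEq (e2 i).symm,
    a, b⟩

/-! ### more about asymptotically flat data -/

namespace Af

variable (A : Af q g K)
include A

theorem jg (i j : Fin n) : J2 0 fun y => g y i j := j2_0 A.q0 (A.g2 i j)
theorem ju (i j : Fin n) : J2 0 (up g i j) := j2_0 A.q0 (A.u2 i j)
theorem jk (i j : Fin n) : J1 (q + 1) fun y => K y i j :=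
  ⟨sf_of (A.sm i j), A.k0 i j, fun k => (A.k1 k i j).mono (by linarith)⟩

theorem od : O2 q 1 (dens g) := by
  have := P366OC.o_comp A.q0 (P366EN.o_det A.q0 (M := mat g) A.g2) (φ := fun t => √t)
    (by simpa using (lt_mem_nhds one_pos).mono fun t ht => contDiffAt_id.sqrt ht.ne')
  rwa [Matrix.det_one, Real.sqrt_one] at this

theorem mu0 : Dc (q + 2) (mu g K) := by
  have q0 := A.q0
  exact ((((P366EN.Bo.sum fun i => P366EN.Bo.sum fun j => (A.u0 i j).mul (P366EN.Bo.sum fun k =>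
    ((A.c1 k k i j).sub (A.c1 j k i k)).add (P366EN.Bo.sum fun l => ((A.c0 k k l).mul (A.c0 l i j)
      (by linarith)).sub ((A.c0 k j l).mul (A.c0 l i k) (by linarith)))) (zero_add _).ge).add
    (A.tr0.mul A.tr0 (by linarith))).sub (P366EN.Bo.sum fun i => P366EN.Bo.sum fun j =>
      P366EN.Bo.sum fun k => P366EN.Bo.sum fun l => (((A.u0 i k).mul (A.u0 j l) (add_zero _).ge).mul
        (A.k0 i j) (zero_add _).ge).mul (A.k0 k l) (by linarith))).cm 2⁻¹).congr
    (.of_forall fun y => by simp only [mu, scal, normSq]; ring)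

theorem hi {w : Vf n} (k : ∀ j, Dc s (w j)) (i : Fin n) :
    Dc (s + q) fun y => ∑ j, up g i j y * w j y - w i y :=
  (P366EN.Bo.sum fun j => (j2_sub (A.u2 i j)).d0.mul (k j) (add_comm _ _).le).congr
    (.of_forall fun y => by simp [sub_mul, Matrix.one_apply])

theorem lap_sub (k : J2 s f) : Dc (s + 2 + q) fun y => lap g f y - lap (eu n) f y :=
  ((P366EN.Bo.sum fun i => A.hi (w := fun j => pd j (pd i f)) (fun j => k.d2 j i) i).sub
    (P366EN.Bo.sum fun i => P366EN.Bo.sum fun j => (A.u0 i j).mul (P366EN.Bo.sum fun l =>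
      (A.c0 l i j).mul (k.d1 l) (by linarith)) (zero_add _).ge)).congr (k.sm.mono fun y m => by
    simp only [A.met.lap_eq_tr (two m), lap_eu, tr, hess, mul_sub, Finset.sum_sub_distrib,
      pd_comm (two m)]
    ring)

theorem unit : ∃ C, 0 ≤ C ∧ ∀ᶠ y in cocompact (E n), ∀ e : Fin n → ℝ,
    ∑ i, ∑ j, g y i j * e i * e j = 1 → ∀ i, |e i| ≤ C := by
  obtain ⟨C, c0, k⟩ := (P366EN.Bo.sum fun i => P366EN.Bo.sum fun j =>
    (show Dc 0 fun y => ‖up g i j y‖ from (A.u0 i j).norm_left)).exists_nonneg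
  have p : 0 ≤ n * C := by positivity
  refine ⟨n * C + 1, by positivity, k.bound.mono fun y k e e1 i => ?_⟩
  have u : ∀ i j, |up g i j y| ≤ C := fun i j => ((Finset.single_le_sum (f := fun j => ‖up g i j y‖)
    (fun _ _ => norm_nonneg _) (Finset.mem_univ j)).trans (Finset.single_le_sum
      (f := fun i => ∑ j, ‖up g i j y‖) (fun _ _ => by positivity) (Finset.mem_univ i))).trans
        ((le_abs_self _).trans (by simpa using k))
  have s := lo_of_hi (by positivity) (A.met.g_nonneg y e)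
    ((A.met.sq_le y e).trans_eq (mul_comm ..)) (quad_le_of_bd u _) p
  rw [e1] at s
  exact abs_le_of_sq_le_sq ((Finset.single_le_sum (f := fun i => e i ^ 2)
    (fun _ _ => sq_nonneg _) (Finset.mem_univ i)).trans (s.trans (by nlinarith))) (by positivity)

end Af

end Vale.Agent.P366K3
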