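import Vale.Agent.P366K3.Str
import Vale.Agent.P366K.Cv

/-!
# P366K3: the energy and the Komar integral of the multipliers
-/

set_option linter.all false

open MeasureTheory Filter Topology Set Asymptotics
open scoped ContDiff
open Vale.Agent.P366
open Vale.Agent.P366.Stmt (E Field BigO flx omega)
open Vale.Agent.P366EN (bo_iff ev_pd ev_pos ev_ev o_sm)
open Vale.Agent.P366RB (O2)
open Vale.Agent.P366XR (Vf Sm)
open Vale.Agent.P366F (pp)

noncomputable section

namespace Vale.Agent.P366K3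

variable {n : ℕ}

section E

open Vale.Agent.P366.Stmt
open Vale.Agent.P366Z hiding pp

variable {g K : Field n} {N U φ f : E n → ℝ} {X W W' : Vf n} {a c c' q : ℝ}

theorem Rad.add (k : Rad c W) (l : Rad c' W') : Rad (c + c') fun i y => W i y + W' i y := by
  obtain ⟨a, a0, k1⟩ := k.rd
  obtain ⟨b, b0, l1⟩ := l.rd
  refine ⟨fun i => (k.sm i).add (l.sm i), min a b, lt_min a0 b0, ((k1.mono (by
    linarith [min_le_left a b])).add (l1.mono (by linarith [min_le_right a b]))).congr
      (.of_forall fun y => ?_)⟩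
  simp only [add_mul, Finset.sum_add_distrib]
  ring

theorem Rad.sum {b : Fin n → ℝ} {V : Fin n → Vf n} (k : ∀ j, Rad (b j) (V j)) :
    Rad (∑ j, b j) fun i y => ∑ j, V j i y := by
  induction (Finset.univ : Finset (Fin n)) using Finset.induction_on with
  | empty => simpa using rad_zero
  | insert j s m ih => simpa only [Finset.sum_insert m] using (k j).add ih

theorem Rad.tw (k : Rad c W) (d : ∀ i, Dc (n - 1) (W i)) (hq : 0 < q) (o : O2 q a f) :
    Rad (a * c) fun i y => f y * W i y :=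
  (k.cm a).near (fun i => Sf.mul (o_sm o) (k.sm i)) hq fun i =>
    ((j2_sub o).d0.mul (d i) (add_comm _ _).le).congr (.of_forall fun y => by ring)

theorem Rad.up (A : Af q g K) (k : Rad c W) (d : ∀ i, Dc (n - 1) (W i)) :
    Rad c fun i y => ∑ j, up g i j y * W j y :=
  k.near (fun i => Sf.sum fun j => (A.ju i j).sm.mul (k.sm j)) A.q0 (A.hi d)

theorem Af.up0 (A : Af q g K) (d : ∀ i, Dc a (W i)) (i : Fin n) :
    Dc a fun y => ∑ j, up g i j y * W j y :=
  P366EN.Bo.sum fun j => (A.u0 i j).mul (d j) (zero_add _).ge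

/-- the integral is the flux at infinity -/
theorem lim_of (hn : 0 < n) (hf : Integrable f) (R : Rad c W) (e : ∀ᶠ r in atTop,
    (∫ y, cut r y * f y) + ∫ y, ∑ i, pd i (cut r) y * W i y = 0) : ∫ y, f y = c * omega n := by
  have a : Tendsto (fun r => ∫ y, cut r y * f y) atTop (𝓝 (∫ y, f y)) :=
    tendsto_integral_filter_of_dominated_convergence (fun y => ‖f y‖) (.of_forall fun r =>
      (sm_cut r).continuous.aestronglyMeasurable.mul hf.1) (.of_forall fun r => .of_forall fun y => by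
        rw [norm_mul, Real.norm_of_nonneg (cut_nonneg r y)]
        exact mul_le_of_le_one_left (norm_nonneg _) (cut_le_one r y)) hf.norm
      (.of_forall fun y => by simpa using (cut_tendsto y).mul_const (f y))
  linarith [tendsto_nhds_unique (a.add (R.cut hn)) (tendsto_const_nhds.congr' (e.mono fun _ m => m.symm))]

/-- the adjoint of the conformal variation -/
def La (g K : Field n) (N : E n → ℝ) (X : Vf n) (U : E n → ℝ) (y : E n) : ℝ :=
  (N y * lap g U y - ∑ j, X j y * ∑ a, K y j a * gr g U a y) * dens g y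

/-- its flux -/
def Wf (g K : Field n) (N : E n → ℝ) (X : Vf n) (U : E n → ℝ) (i : Fin n) (y : E n) : ℝ :=
  dens g y * (N y * ∑ j, up g i j y * pd j U y - U y * ∑ j, up g i j y * pp K N X j y)

theorem sm_pp (hK : Sm K) (hN : Smooth N) (hX : ∀ i, Smooth (X i)) (j : Fin n) :
    Smooth (pp K N X j) := ContDiff.add (hN.pd j) (ContDiff.sum fun k _ => (hK j k).mul (hX k))

theorem la_mul (A : Af q g K) (hN : Smooth N) (hX : ∀ i, Smooth (X i)) (hU : Smooth U) {r : ℝ}
    (r0 : 0 < r) : ∫ y, La g K N X (fun y => cut r y * U y) y =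
      (∫ y, cut r y * La g K N X U y) + ∫ y, ∑ i, pd i (cut r) y * Wf g K N X U i y := by
  have hg := A.met
  have hφ := sm_cut (n := n) r
  have z : ∀ y : E n, 2 * r + 1 ≤ ‖y‖ → cut r =ᶠ[𝓝 y] fun _ => 0 := fun y m =>
    (P366M.ev_lt_norm (show 2 * r < ‖y‖ by linarith)).mono fun w k => cut_zero r0 k.le
  have hP := ContDiff.mul hN hU
  have i1 : Integrable fun y => cut r y * La g K N X U y := integrable_of_out (R := 2 * r) (hφ.continuous.mul
    (((hN.mul (hg.sm_lap hU)).sub (ContDiff.sum fun j _ => (hX j).mul (ContDiff.sum fun a _ =>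
      (A.sm j a).mul (hg.sm_gr hU a)))).mul hg.sm_dens).continuous) fun y m => by
    simp [cut_zero r0 m]
  have i2 : Integrable fun y => ∑ i, pd i (cut r) y * Wf g K N X U i y := integrable_of_out
    (R := 2 * r + 1) (ContDiff.sum fun i _ => (hφ.pd i).mul (hg.sm_dens.mul ((hN.mul (hg.sm_gr hU i)).sub (hU.mul
      (ContDiff.sum fun j _ => (hg.sm_up i j).mul (sm_pp A.sm hN hX j)))))).continuous fun y m => by
    simp [pd_congr (z y m), pd_const]
  have i3 : Integrable fun y => N y * U y * lap g (cut r) y * dens g y := integrable_of_out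
    (R := 2 * r + 1) ((hP.mul (hg.sm_lap hφ)).mul hg.sm_dens).continuous fun y m => by
    simp [lap_congr (z y m), lap_const]
  have i4 : Integrable fun y => ip g (cut r) (fun y => N y * U y) y * dens g y := integrable_of_out
    (R := 2 * r + 1) ((hg.sm_ip hφ hP).mul hg.sm_dens).continuous fun y m => by
    simp [ip, pd_congr (z y m), pd_const]
  have e1 := hg.green_lap (hφ.of_le P366M.two_le_oo) (supp_cut r0) (hP.of_le P366M.two_le_oo)
  have e2 := hg.ibp_lap (lip_cut r0) (supp_cut r0) (hP.of_le P366M.two_le_oo)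
  rw [← add_zero (_ + _), ← add_neg_cancel (∫ y, N y * U y * lap g (cut r) y * dens g y)]
  nth_rw 2 [← e1]
  rw [e2, neg_neg, ← integral_add i1 i2, ← integral_add i3 i4]
  refine (integral_congr_ae (.of_forall fun y => ?_)).trans (integral_add (i1.add i2) (i3.add i4))
  have e3 : ∑ i, pd i (cut r) y * ∑ j, up g i j y * pp K N X j y = ip g (cut r) N y +
      ∑ j, X j y * ∑ a, K y j a * gr g (cut r) a y := by
    simp only [pp, mul_add, Finset.sum_add_distrib, ip_eq_gr, gr, Finset.mul_sum]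
    refine congrArg _ (P366K.C.p3 (fun (i, j, k) => (k, j, i)) (fun (k, j, i) => (i, j, k))
      (fun _ => rfl) (fun _ => rfl) fun (i, j, k) => ?_)
    simp only [hg.up_sy i j, A.sy y j k]
    ring
  have e4 : ∀ a, gr g (fun y => cut r y * U y) a y = U y * gr g (cut r) a y + cut r y * gr g U a y :=
    fun a => by
      simp only [gr, pd_mul (hφ.diff y) (hU.diff y), Finset.mul_sum, ← Finset.sum_add_distrib]
      exact Finset.sum_congr rfl fun _ _ => by ring
  have e5 : ∑ i, pd i (cut r) y * Wf g K N X U i y = dens g y * (N y * ip g (cut r) U y -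
      U y * ∑ i, pd i (cut r) y * ∑ j, up g i j y * pp K N X j y) := by
    rw [ip_eq_gr, Finset.mul_sum, Finset.mul_sum, ← Finset.sum_sub_distrib, Finset.mul_sum]
    exact Finset.sum_congr rfl fun _ _ => by simp only [Wf, gr]; ring
  have e6 : ∀ (b : ℝ) (w : Vf n), ∑ j, X j y * ∑ a, K y j a * (b * w a y) =
      b * ∑ j, X j y * ∑ a, K y j a * w a y := fun b w => by
    simp only [mul_left_comm _ b, ← Finset.mul_sum]
  simp only [La, Pi.add_apply, e5, e3, e4, mul_add (K y _ _), mul_add (X _ y), Finset.sum_add_distrib,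
    e6, hg.lap_mul (hφ.c2 y) (hU.c2 y), ip_mul_right (hN.diff y) (hU.diff y)]
  ring

theorem rad_Wf (A : Af q g K) (oN : O2 q a N) {X0 : Fin n → ℝ} (oX : ∀ i, O2 q (X0 i) (X i))
    (J : J2 (n - 2) U) (R : Rad c fun i => pd i U) : Rad (a * c) (Wf g K N X U) := by
  have d := fun i => (J.d1 i).mono (show (n : ℝ) - 1 ≤ _ by linarith)
  have p : ∀ j, J1 (q + 1) (pp K N X j) := fun j => ((j2_sub oN).pd j).congr (.of_forall fun y =>
    (pd_sub_const a j).symm) |>.add (J1.sum fun k => (A.jk j k).mul (j2_0 A.q0 (oX k)).toJ1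
      (add_zero _).ge)
  have b : ∀ i, J1 (n - 1 + q) fun y => U y * ∑ j, up g i j y * pp K N X j y := fun i =>
    J.toJ1.mul (J1.sum fun j => (A.ju i j).toJ1.mul (p j) (zero_add _).ge) (by linarith)
  have r := (R.up A d).tw (A.up0 d) A.q0 oN
  have := (r.near (W' := fun i y => N y * ∑ j, up g i j y * pd j U y -
    U y * ∑ j, up g i j y * pp K N X j y) (fun i => (r.sm i).sub (b i).sm) A.q0 fun i =>
      ((b i).d0.cm (-1)).congr (.of_forall fun y => by ring)).tw (fun i => ((o_0 A.q0 oN).mul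
        (A.up0 d i) (zero_add _).ge).sub ((b i).d0.mono (by linarith [A.q0]))) A.q0 A.od
  rwa [one_mul] at this

end E

open Vale.Agent.P366M Vale.Agent.P366K

variable {M : Type} [Mfe n M] {D : Exterior n M} {N : M → ℝ} {X : Fin n → M → ℝ}
  {R2 ρ : ℝ} {NE U : E n → ℝ} {XE : Vf n}

/-- the far region, with extensions of `N` and `X` to the whole space -/
structure Fc (D : Exterior n M) (R2 : ℝ) (N : M → ℝ) (X : Fin n → M → ℝ) (ρ : ℝ) (NE : E n → ℝ)
    (XE : Vf n) : Prop where
  R : R0 M < ρ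
  R2 : R2 < ρ
  sN : Stmt.Smooth NE
  sX : ∀ i, Stmt.Smooth (XE i)
  fa : ∀ y, ρ ≤ ‖y‖ → (fe D.g =ᶠ[𝓝 y] gE D ∧ fe D.K =ᶠ[𝓝 y] kE D) ∧ fe N =ᶠ[𝓝 y] NE ∧
    (∀ i, fe (X i) =ᶠ[𝓝 y] XE i) ∧ 0 < D.F (yp y)

namespace Fc

variable (C : Fc D R2 N X ρ NE XE)
include C

theorem pos : 0 < ρ := by linarith [C.R, R0_ge M]

theorem lt {x : M} (hx : D.F x ≤ 0) : ‖px x‖ < ρ := lt_of_not_ge fun m => by
  have := (C.fa _ m).2.2.2
  rw [yp_px (by linarith [C.R])] at this
  linarith

theorem int {f : M → ℝ} {G : E n → ℝ} (hf : ∀ x, ‖px x‖ < ρ → f x = 0)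
    (hG : ∀ y, ‖y‖ < ρ → G y = 0) (e : ∀ y, ρ ≤ ‖y‖ → f (yp y) = G y) :
    (IntegrableOn f {x | 0 ≤ D.F x} → Integrable G) ∧ ∫ x in {x | 0 ≤ D.F x}, f x = ∫ y, G y := by
  have z : ∀ x ∉ {x | 0 ≤ D.F x}, f x = 0 := fun x m => hf x (C.lt (le_of_not_ge m))
  exact ⟨fun k => (integrable_out C.R.le hf hG e).1 (k.integrable_of_forall_notMem_eq_zero z),
    (setIntegral_eq_integral_of_forall_compl_eq_zero z).trans (integral_out C.R.le hf hG e)⟩

variable {m κ R1 ε c l l' q dE a : ℝ} {P dP : Fin n → ℝ} {Z : Fin n → M → ℝ} {W : Type}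
  [MeasurableSpace W] {π : W → M} {ν : W → Fin n → ℝ} {α β : Measure W} {η : Measure M}
  (hC : P366K.C.CONF) (hR : REP) (Q : Eqc D m P κ) (H : Mm D m P κ R1 R2 ε Z π ν α β η c l)
  (G : Rp D ε π ν α N X)
include hC hR Q H G

/-- the conformal identity in the coordinates of the end -/
theorem id_E (hU : Stmt.Smooth U) (z : ∀ y, ‖y‖ < ρ → U y = a)
    (V : Var D ε (cH D fun x => U (px x)) (cK D fun x => U (px x)) dE dP l') :
    Integrable (La (gE D) (kE D) NE XE U) ∧ (n - 1) * (a * β.real univ -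
      ∫ y, La (gE D) (kE D) NE XE U y) + l * l' = c * dm m P dE dP := by
  obtain ⟨i, e⟩ := id_cf hC hR (by linarith [Q.n3]) Q.mar H G (smooth_px hU) V
  have z1 : ∀ x : M, ‖px x‖ < ρ → (fun x => U (px x)) =ᶠ[𝓝 x] fun _ => a := fun x k =>
    (ev_px_lt k).mono fun w => z _
  have z2 : ∀ y : E n, ‖y‖ < ρ → U =ᶠ[𝓝 y] fun _ => a := fun y k =>
    ((isOpen_lt continuous_norm continuous_const).eventually_mem k).mono z
  obtain ⟨j, t⟩ := C.int (f := fun x => (N x * lap D.g (fun x => U (px x)) x -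
    kx D X (fun x => U (px x)) x) * dens D.g x) (G := La (gE D) (kE D) NE XE U)
    (fun x k => by simp [kx, gr, lap_congr (z1 x k), lap_const, pd_zero_of_ev (z1 x k)])
    (fun y k => by simp [La, P366Z.gr, P366Z.lap_congr (z2 y k), P366Z.lap_const,
      P366Z.pd_congr (z2 y k), P366Z.pd_const]) fun y k => by
      obtain ⟨⟨a1, a2⟩, a3, a4, -⟩ := C.fa y k
      have r := C.R.trans_le k
      have u : fj Mfe.o (fun x : M => U (px x)) =ᶠ[𝓝 y] U := fj_px (by linarith) U
      simp only [La, kx, yp, lap_ye r, gr_ye r.le, dens_ye r.le, ← fe_eq, P366Z.lap_of_ev a1,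
        P366Z.gr_of_eq a1.eq_of_nhds, P366Z.dens_of_eq a1.eq_of_nhds, ← a2.eq_of_nhds,
        ← a3.eq_of_nhds, ← fun i => (a4 i).eq_of_nhds]
      simp only [fe_eq, P366Z.lap_congr u, P366Z.gr, P366Z.pd_congr u]
      rfl
  refine ⟨j i, ?_⟩
  have := H.fβ
  rw [t, integral_congr_ae (H.sβ.mono fun w k => z _ (k.trans_lt C.R2)), integral_congr_ae
    (H.sη.mono fun x k => show _ = (0 : ℝ) by simp [pd_zero_of_ev (z1 x (C.lt k.le))])] at e
  simpa [mul_comm a] using e

theorem id_cut (hU : Stmt.Smooth U) (z : ∀ y, ‖y‖ < ρ → U y = a) {r : ℝ} (hr : ρ ≤ r) :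
    ∫ y, La (gE D) (kE D) NE XE (fun y => P366Z.cut r y * U y) y = a * β.real univ := by
  have s := ContDiff.mul (P366Z.sm_cut r) hU
  have := (C.id_E hC hR Q H G (a := a) s (fun y k => by
    rw [P366Z.cut_one (k.le.trans hr), one_mul, z y k]) (var_cf (R := 2 * r) (smooth_px s)
      (fun x k => by rw [P366Z.cut_zero (C.pos.trans_le hr) k, zero_mul]) ε)).2
  have n3 : (3 : ℝ) ≤ n := by exact_mod_cast Q.n3
  simp only [dm, mul_zero, Pi.zero_apply, Finset.sum_const_zero, sub_zero, zero_div, add_zero,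
    mul_eq_zero] at this
  rcases this with k | k <;> linarith

/-- **the energy** -/
theorem energy (A : Af q (gE D) (kE D)) (hq : ε < q) {N0 : ℝ} {X0 : Fin n → ℝ} (oN : O2 q N0 NE)
    (oX : ∀ i, O2 q (X0 i) (XE i)) : N0 = c * (m / bm m P) := by
  have n3 : (3 : ℝ) ≤ n := by exact_mod_cast Q.n3
  have s := sm_tl (n := n) C.pos (2 - n)
  have J : J2 (n - 2) (tl ρ (2 - n) : E n → ℝ) := by
    simpa only [neg_sub] using (j2_pow (n := n) (2 - n)).congr (tl_ev C.pos _)
  have R := rad_pow.congr (W' := fun i => Stmt.pd i (tl ρ (2 - n))) (ev_pd (tl_ev C.pos _))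
  obtain ⟨i, e⟩ := C.id_E hC hR Q H G (a := 0) s (fun y k => tl_in k.le) (var_tail (l := 0) hC hR
    Q.n3 A s J R hq (dc_zero ((lap_tl C.pos (2 - n) 1).mono fun y k => by
      simp only [one_mul] at k
      rw [k]; ring)))
  rw [lim_of (by linarith [Q.n3]) i (rad_Wf A oN oX J R) ((eventually_ge_atTop ρ).mono fun r k => by
    rw [← la_mul A C.sN C.sX s (C.pos.trans_le k), C.id_cut hC hR Q H G s (fun y k => tl_in k.le) k,
      zero_mul])] at e
  have w := P366Z.omega_pos (n := n) (by linarith [Q.n3])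
  refine mul_left_cancel₀ (show (n - 1) * (n - 2) * omega n ≠ 0 from
    (mul_pos (mul_pos (by linarith) (by linarith)) w).ne') ?_
  simp only [dm, Pi.zero_apply, mul_zero, Finset.sum_const_zero] at e
  linear_combination e

/-- **the Komar integral** -/
theorem komar (A : Af q (gE D) (kE D)) {r : ℝ} (hr : ρ ≤ r) :
    ∫ x, (∑ i, ∑ j, up D.g i j x * pd i (cut r) x * pp (rep (ch x) D.K) (loc (ch x) N)
      (repV (ch x) X) j (pt x)) * dens D.g x = -β.real univ := by
  have e := C.id_cut hC hR Q H G (U := fun _ => 1) contDiff_const (fun _ _ => rfl) hr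
  rw [la_mul A C.sN C.sX contDiff_const (C.pos.trans_le hr), one_mul] at e
  simp only [La, Wf, P366Z.gr, P366Z.lap_const, P366Z.pd_const, mul_zero, Finset.sum_const_zero,
    sub_zero, zero_mul, integral_zero, zero_add, zero_sub, one_mul, mul_neg, Finset.sum_neg_distrib,
    integral_neg] at e
  rw [← e, neg_neg]
  refine integral_out C.R.le (fun x k => by simp [pd_cut_in (k.trans_le hr)])
    (fun y k => by simp [P366Z.pd_cut_in (k.trans_le hr)]) fun y k => ?_
  obtain ⟨⟨a1, a2⟩, a3, a4, -⟩ := C.fa y k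
  have t := C.R.trans_le k
  have u : ∀ i, pd i (cut r) (yp y : M) = Stmt.pd i (P366Z.cut r) y := fun i =>
    (pd_px (by rw [px_yp (by linarith)]; exact t.le) i _).trans (by rw [px_yp (by linarith)])
  simp only [u, pp]
  simp only [yp, pt_ye t.le, up_ye, dens_ye t.le, (rep_ye t _).eq_of_nhds, (repV_ye t _ _).eq_of_nhds,
    P366Z.pd_congr (loc_ye t.le N), ← fe_eq, P366Z.pd_congr a3, P366Z.up_of_eq a1.eq_of_nhds,
    P366Z.dens_of_eq a1.eq_of_nhds, a2.eq_of_nhds, fun i => (a4 i).eq_of_nhds, Finset.sum_mul,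
    Finset.mul_sum]
  exact Finset.sum_congr rfl fun _ _ => Finset.sum_congr rfl fun _ _ => by ring

end Fc

end Vale.Agent.P366K3
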