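import Vale.Agent.P366K3.Tl
import Vale.Agent.P366RB.Wsy

/-!
# P366K3: the momentum of the multipliers
-/

set_option linter.all false

open MeasureTheory Filter Topology Set Asymptotics
open scoped ContDiff
open Vale.Agent.P366
open Vale.Agent.P366.Stmt (E Field BigO flx omega)
open Vale.Agent.P366EN (bo_iff ev_pd ev_pos ev_ev o_sm)
open Vale.Agent.P366RB (O2)
open Vale.Agent.P366RB.Ws (im sy_im momT_im)
open Vale.Agent.P366XR (Vf Sm)
open Vale.Agent.P366Y.C (Sy)
open Vale.Agent.P366K.C (pr Lmu Lmo)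

noncomputable section

namespace Vale.Agent.P366K3

variable {n : ℕ}

section E

open Vale.Agent.P366.Stmt Vale.Agent.P366Z

variable {g K T : Field n} {N U : E n → ℝ} {X : Vf n} {q s : ℝ} {b : Fin n → ℝ} {y : E n}

theorem lmu0 (g K k : Field n) (y : E n) :
    Lmu g K (fun _ _ _ => 0) k y = -pr g (momT g K) k y := by
  have : P366K.C.rs g (mom g fun _ _ _ => 0) = fun _ _ => 0 := by
    funext i z
    simp [P366K.C.rs, mom, momT, tr, pd_const]
  simp [Lmu, this, dv, pd_const, pr]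

theorem lmo0 (g K k : Field n) (j : Fin n) (y : E n) :
    Lmo g K (fun _ _ _ => 0) k j y = mom g k j y := by
  have : P366K.C.Wt g K (fun _ _ _ => 0) k = momT g k := by
    funext z a b
    simp [P366K.C.Wt, pr, P366K.C.ml, tr]
  simp only [Lmo, P366K.C.Lmom, this]
  simp [pr, tr]
  rfl

/-- the adjoint of the variation of `K` -/
def Lm (g K : Field n) (N : E n → ℝ) (X : Vf n) (T : Field n) (y : E n) : ℝ :=
  (N y * -pr g (momT g K) (im g T) y + ∑ j, X j y * dvT g T j y) * dens g y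

/-- its flux -/
def Vm (g : Field n) (X : Vf n) (T : Field n) (k : Fin n) (y : E n) : ℝ :=
  dens g y * ∑ j, X j y * ∑ i, up g k i y * T y i j

theorem lm_zero (e : ∀ᶠ z in 𝓝 y, T z = fun _ _ => 0) : Lm g K N X T y = 0 := by
  have : ∀ i j k, pd k (fun y => T y i j) y = 0 := fun i j k =>
    (pd_congr (h := fun _ => 0) (e.mono fun _ r => by simp [r]) k).trans (pd_const 0 k y)
  simp [Lm, dvT, this, e.self_of_nhds, pr, im, tr]

theorem lm_mul (hg : Met g) (hT : Sm T) (hU : Smooth U) (y : E n) :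
    Lm g K N X (fun y i j => U y * T y i j) y =
      U y * Lm g K N X T y + ∑ k, pd k U y * Vm g X T k y := by
  have e1 : pr g (momT g K) (im g fun y i j => U y * T y i j) y =
      U y * pr g (momT g K) (im g T) y := by
    have : ∀ i j, im g (fun y i j => U y * T y i j) y i j = U y * im g T y i j := fun i j => by
      simp only [im, tr, mul_left_comm _ (U y), ← Finset.mul_sum]
      ring
    simp only [pr, this, mul_left_comm _ (U y), ← Finset.mul_sum]
  have e2 : ∑ k, pd k U y * Vm g X T k y =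
      dens g y * ∑ j, X j y * ∑ i, ∑ k, up g i k y * (pd k U y * T y i j) := by
    simp only [Vm, Finset.mul_sum]
    refine P366K.C.p3 (fun (k, j, i) => (j, i, k)) (fun (j, i, k) => (k, j, i)) (fun _ => rfl)
      (fun _ => rfl) fun (k, j, i) => ?_
    simp only [hg.up_sy k i]
    ring
  simp only [Lm, e1, e2, P366K.C.dvT_smul g (hU.diff y) hT, mul_add (X _ y), Finset.sum_add_distrib,
    mul_left_comm (X _ y) (U y), ← Finset.mul_sum]
  ring

theorem rad_Vm (A : Af q g K) {X0 : Fin n → ℝ} (oX : ∀ i, O2 q (X0 i) (X i))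
    (J : ∀ i j, J1 (n - 1) fun y => T y i j) (R : ∀ j, Rad (b j) fun i y => T y i j) :
    Rad (∑ j, X0 j * b j) (Vm g X T) := by
  have := (Rad.sum fun j => ((R j).up A fun i => (J i j).d0).tw (A.up0 fun i => (J i j).d0) A.q0
    (oX j)).tw (fun k => P366EN.Bo.sum fun j => (o_0 A.q0 (oX j)).mul (A.up0 (fun i => (J i j).d0) k)
      (zero_add _).ge) A.q0 A.od
  rwa [one_mul] at this

theorem Af.jt (A : Af q g K) (J : ∀ i j, J1 s fun y => T y i j) :
    J1 s fun y => tr g T y / (n - 1) :=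
  ((J1.sum fun i => J1.sum fun j => (A.ju i j).toJ1.mul (J i j) (zero_add _).ge).cm
    (n - 1 : ℝ)⁻¹).congr (.of_forall fun y => div_eq_inv_mul _ _)

theorem Af.jim (A : Af q g K) (J : ∀ i j, J1 s fun y => T y i j) (i j : Fin n) :
    J1 s fun y => im g T y i j := (J i j).sub ((A.jt J).mul (A.jg i j).toJ1 (add_zero _).ge)

theorem Af.rad_im (A : Af q g K) (hn : 2 ≤ n) (J : ∀ i j, J1 (n - 1) fun y => T y i j) {c : ℝ}
    {i : Fin n} (R : Rad c fun j y => T y i j) :
    Rad c fun j y => im g T y i j - if i = j then ∑ a, im g T y a a else 0 := by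
  have n1 : (n - 1 : ℝ) ≠ 0 := by
    have : (2 : ℝ) ≤ n := by exact_mod_cast hn
    linarith
  have a := fun i j => (A.jt J).d0.mul (j2_sub (A.g2 i j)).d0 le_rfl
  refine R.near (fun j => ?_) A.q0 fun j => ?_
  · split_ifs
    · exact (A.jim J i j).sm.sub (Sf.sum fun a => (A.jim J a a).sm)
    · simpa using (A.jim J i j).sm
  split_ifs with e
  · subst e
    refine (((P366EN.Bo.sum fun a => A.hi (w := fun j y => T y a j) (fun j => (J a j).d0) a).add
      (P366EN.Bo.sum fun i => a i i)).sub (a i i)).congr (.of_forall fun y => ?_)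
    have : ∑ a, ∑ j, up g a j y * T y a j = (n - 1) * (tr g T y / (n - 1)) :=
      (mul_div_cancel₀ _ n1).symm
    simp only [im, Finset.sum_sub_distrib, ← Finset.mul_sum, this, Matrix.one_apply_eq]
    simp
    ring
  · exact ((a i j).cm (-1)).congr (.of_forall fun y => by simp [im, Matrix.one_apply_ne e])

theorem Af.pr0 (A : Af q g K) (J : ∀ i j, Dc s fun y => T y i j) :
    Dc (q + 1 + s) (pr g (momT g K) T) :=
  P366EN.Bo.sum fun i => P366EN.Bo.sum fun j => P366EN.Bo.sum fun k => P366EN.Bo.sum fun l =>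
    (((A.u0 i k).mul (A.u0 j l) (add_zero _).ge).mul ((A.k0 i j).sub (A.tr0.mul (A.g0 i j)
      (add_zero _).ge)) (zero_add _).ge).mul (J k l) le_rfl

theorem Af.dv0 (A : Af q g K) (J : ∀ i j, J1 s fun y => T y i j) (j : Fin n)
    (z : ∀ᶠ y in cocompact (E n), ∑ i, pd i (fun y => T y i j) y = 0) :
    Dc (s + 1 + q) (dvT g T j) :=
  ((P366EN.Bo.sum fun i => A.hi (w := fun k => pd k fun y => T y i j) (fun k => (J i j).d1 k) i).sub
    (P366EN.Bo.sum fun i => A.up0 (W := fun k y => ∑ l, (chr g l k i y * T y l j +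
      chr g l k j y * T y i l)) (fun k => P366EN.Bo.sum fun l => ((A.c0 l k i).mul (J l j).d0
        (by linarith)).add ((A.c0 l k j).mul (J i l).d0 (by linarith))) i)).congr
    (z.mono fun y m => by simp only [dvT, mul_sub, Finset.sum_sub_distrib, m, sub_zero])

/-- the unit matrix -/
def dl (i j : Fin n) : ℝ := if i = j then 1 else 0

/-- the model of the momentum -/
def Wm (U : E n → ℝ) (c : Fin n) : Field n := fun y i j =>
  dl c j * pd i U y + (dl c i * pd j U y - dl i j * pd c U y)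

theorem sy_Wm (hU : Smooth U) (c : Fin n) : Sy (Wm U c) :=
  ⟨fun i j => ContDiff.add (contDiff_const.mul (hU.pd i)) ((contDiff_const.mul (hU.pd j)).sub
    (contDiff_const.mul (hU.pd c))), fun y i j => by simp only [Wm, dl, eq_comm (a := i)]; ring⟩

theorem j_Wm (J : J2 s U) (c i j : Fin n) : J1 (s + 1) fun y => Wm U c y i j :=
  ((J.pd i).cm _).add (((J.pd j).cm _).sub ((J.pd c).cm _))

theorem dv_Wm (hU : Smooth U) (c j : Fin n) (y : E n) :
    ∑ i, pd i (fun y => Wm U c y i j) y = dl c j * lap (eu n) U y := by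
  have d := fun (a : ℝ) i => ((hU.pd i).diff y).const_mul a
  simp only [Wm, pd_add (d _ _) ((d _ _).fun_sub (d _ _)), pd_sub (d _ _) (d _ _), pd_const_mul,
    Finset.sum_add_distrib, Finset.sum_sub_distrib, lap_eu, Finset.mul_sum]
  simp [dl, pd_comm (hU.c2 y) c j]

theorem rad_Wm (e : U =ᶠ[cocompact (E n)] fun y => ‖y‖ ^ (2 - n : ℝ)) (c j : Fin n) :
    Rad (dl c j * (2 - n)) fun i y => Wm U c y i j := by
  have R := rad_pow.congr (W' := fun i => pd i U) (ev_pd e)
  have : Rad 0 fun i y => dl c i * pd j U y - dl i j * pd c U y :=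
    ⟨fun i => ((sf_of contDiff_const).mul (R.sm j)).sub ((sf_of contDiff_const).mul (R.sm c)), 1,
      one_pos, dc_zero (((ev_pd e j).and ((ev_pd e c).and ev_ne)).mono fun y m => by
        simp only [m.1, m.2.1, pd_norm_rpow m.2.2, sub_mul, Finset.sum_sub_distrib]
        simp [dl]
        ring)⟩
  simpa only [add_zero, Wm] using (R.cm (dl c j)).add this

end E

open Vale.Agent.P366M Vale.Agent.P366K

variable {M : Type} [Mfe n M] {D : Exterior n M} {N : M → ℝ} {X : Fin n → M → ℝ}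
  {R2 ρ q ε : ℝ} {NE : E n → ℝ} {XE : Vf n} {T : Field n} {b : Fin n → ℝ}

theorem kT_ev (z : ∀ y, ‖y‖ < ρ → T y = fun _ _ => 0) {x : M} (hx : ‖px x‖ < ρ) :
    (fun x : M => T (px x)) =ᶠ[𝓝 x] fun _ _ _ => 0 := (ev_px_lt hx).mono fun _ => z _

theorem rep_kT {y : E n} (hy : R0 M < ‖y‖) (T : Field n) :
    rep (ch (yp y)) (fun x : M => T (px x)) =ᶠ[𝓝 y] T :=
  (rep_ye hy _).trans (fj_px (by linarith) T)

theorem sym_kT (hρ : R0 M < ρ) (hT : Sy T) (z : ∀ y, ‖y‖ < ρ → T y = fun _ _ => 0) :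
    Sym fun x : M => T (px x) := by
  refine ⟨smT_of fun x => ⟨ch x, ch_mem x, mem_ch x, fun i j => ?_⟩, fun x => hT.sy _⟩
  rcases lt_or_ge ‖px x‖ ρ with k | k
  · exact (contDiffAt_const (c := 0)).congr_of_eventuallyEq ((rep_congr_pt (kT_ev z k)).mono
      fun w m => by simp only [m, rep_zero])
  · have e := rep_kT (M := M) (hρ.trans_le k) T
    rw [yp_px (by linarith), ← pt_far (by linarith)] at e
    exact (hT.sm i j).contDiffAt.congr_of_eventuallyEq (e.mono fun w m => by simp only [m])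

theorem im_zero {g : Field n} (z : ∀ y, ‖y‖ < ρ → T y = fun _ _ => 0) (y : E n) (k : ‖y‖ < ρ) :
    im g T y = fun _ _ => 0 := by
  funext i j
  simp [im, Stmt.tr, z y k]

theorem far_kT (hR : REP) (hn : 2 ≤ n) (hg : P366Z.Met (gE D))
    (s : Sym fun x : M => im (gE D) T (px x)) {y : E n} (hy : R0 M < ‖y‖)
    (e1 : fe D.g =ᶠ[𝓝 y] gE D) (e2 : fe D.K =ᶠ[𝓝 y] kE D) :
    dmu D.g D.K (fun _ _ _ => 0) (fun x => im (gE D) T (px x)) (yp y) =
      -pr (gE D) (Stmt.momT (gE D) (kE D)) (im (gE D) T) y ∧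
    ∀ j, dmo D.g D.K (fun _ _ _ => 0) (fun x => im (gE D) T (px x)) j (yp y) =
      P366Z.dvT (gE D) T j y := by
  obtain ⟨h1, h2, -⟩ := (hR n M D.g D.K _ _ D.F D.met (symK D) sym_zero s D.dom.1).1 _
    (ch_mem (yp y : M)) (pt (yp y : M))
  have a1 := (rep_ye hy D.g).trans e1
  have a2 := (rep_ye hy D.K).trans e2
  have a3 := rep_kT (M := M) hy (im (gE D) T)
  have p : pt (yp y : M) = y := pt_ye hy.le
  simp only [symm_pt, repC_pt, rep_zero, lmu0, lmo0] at h1 h2
  rw [p] at h1 h2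
  refine ⟨h1.trans ?_, fun j => (h2 j).trans ((mom_ev a1 a3 j).trans ?_)⟩
  · simp only [pr, Stmt.momT, Stmt.tr, yp, P366Z.up_of_eq a1.eq_of_nhds, a1.eq_of_nhds,
      a2.eq_of_nhds, show rep (ch (ye Mfe.o y)) _ y = _ from a3.eq_of_nhds]
  · exact show P366Z.dvT _ (Stmt.momT _ _) j y = _ by rw [momT_im hg hn]

theorem var_mom (hR : REP) (hn : 3 ≤ n) (A : Af q (gE D) (kE D)) (hq : ε < q) (hT : Sy T)
    (s : Sym fun x : M => im (gE D) T (px x)) (J : ∀ i j, J1 (n - 1) fun y => T y i j)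
    (R : ∀ j, Rad (b j) fun i y => T y i j)
    (z : ∀ j, ∀ᶠ y in cocompact (E n), ∑ i, Stmt.pd i (fun y => T y i j) y = 0) :
    Var D ε (fun _ _ _ => 0) (fun x => im (gE D) T (px x)) 0 (fun i => b i / (n - 1)) 0 := by
  have V := var_cpt (D := D) sym_zero sym_zero (R := 0) (fun _ _ => ⟨rfl, rfl⟩) ε
  have e : ∀ i j, (fun y => fe (fun x : M => im (gE D) T (px x)) y i j) =ᶠ[cocompact (E n)]
      fun y => im (gE D) T y i j := fun i j => fe_px fun y => im (gE D) T y i j
  have a := fun i j => (A.jim J i j).congr (e i j)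
  have f := (far D).mono fun y m => far_kT hR (by omega) A.met s m.1 m.2.1 m.2.2
  refine var_of A ⟨sym_zero, s, fun i j c d => ⟨(V.dec i j c d).1, (V.dec i j c d).2.1,
    (V.dec i j c d).2.2.1, bo_iff.2 (a i j).d0, bo_iff.2 (((a i j).d1 c).mono (by linarith))⟩, V.en,
    fun i => Rad.flx ((A.rad_im (by omega) J ((R i).congr fun j => .of_forall fun y =>
      hT.sy y i j)).congr fun j => ?_) (by omega)⟩ hq
    ((((A.pr0 fun i j => (A.jim J i j).d0).mono (by linarith)).cm (-1)).congr (f.mono fun y m => ?_))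
    fun j => ((A.dv0 J j (z j)).mono (by linarith)).congr (f.mono fun y m => m.2 j)
  · filter_upwards [e i j, eventually_all.2 fun a => e a a] with y h1 h2
    simp only [h1, h2]
  · simp only [fe, m.1]
    ring

namespace Fc

variable {m κ R1 c l : ℝ} {P dP : Fin n → ℝ} {Z : Fin n → M → ℝ} {W : Type}
  [MeasurableSpace W] {π : W → M} {ν : W → Fin n → ℝ} {α β : Measure W} {η : Measure M}
  (C : Fc D R2 N X ρ NE XE) (hR : REP) (Q : Eqc D m P κ)
  (H : Mm D m P κ R1 R2 ε Z π ν α β η c l) (G : Rp D ε π ν α N X) (A : Af q (gE D) (kE D))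
include C hR Q H G A

theorem id_M (z : ∀ y, ‖y‖ < ρ → T y = fun _ _ => 0)
    (V : Var D ε (fun _ _ _ => 0) (fun x => im (gE D) T (px x)) 0 dP 0) :
    Integrable (Lm (gE D) (kE D) NE XE T) ∧ ∫ y, Lm (gE D) (kE D) NE XE T y = c * dm m P 0 dP := by
  obtain ⟨i, e⟩ := id_NX hR (by linarith [Q.n3]) H G V
  have v := fun (x : M) k => var_zero (D := D) (x := x) EventuallyEq.rfl
    (kT_ev (im_zero (g := gE D) z) k)
  obtain ⟨j, t⟩ := C.int (G := Lm (gE D) (kE D) NE XE T) (f := fun x => (N x *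
      dmu D.g D.K (fun _ _ _ => 0) (fun x => im (gE D) T (px x)) x + ∑ j, X j x *
        dmo D.g D.K (fun _ _ _ => 0) (fun x => im (gE D) T (px x)) j x) * dens D.g x)
    (fun x k => by simp [(v x k).1, (v x k).2.1])
    (fun y k => lm_zero (((isOpen_lt continuous_norm continuous_const).eventually_mem k).mono z))
    fun y k => by
      obtain ⟨⟨a1, a2⟩, a3, a4, -⟩ := C.fa y k
      have r := C.R.trans_le k
      obtain ⟨b1, b2⟩ := far_kT hR (by linarith [Q.n3]) A.met V.sk r a1 a2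
      simp only [Lm, b1, b2, ← a3.eq_of_nhds, ← fun i => (a4 i).eq_of_nhds,
        ← P366Z.dens_of_eq a1.eq_of_nhds]
      rw [yp, dens_ye r.le]
      rfl
  refine ⟨j i, ?_⟩
  rw [t, integral_congr_ae (H.sη.mono fun x k => (v x (C.lt k.le)).2.2.1)] at e
  simpa [ar, tr] using e

/-- **the momentum** -/
theorem momentum (hq : ε < q) {X0 : Fin n → ℝ} (oX : ∀ i, O2 q (X0 i) (XE i)) (a : Fin n) :
    X0 a = -(c * (P a / bm m P)) := by
  have n3 : (3 : ℝ) ≤ n := by exact_mod_cast Q.n3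
  have s := sy_Wm (sm_tl (n := n) C.pos (2 - n)) a
  have J := fun i j => (j_Wm ((j2_pow (n := n) (2 - n)).congr (tl_ev C.pos _)) a i j).mono
    (show (n : ℝ) - 1 ≤ _ by linarith)
  have R := rad_Wm (tl_ev (n := n) C.pos (2 - n)) a
  have z : ∀ y : E n, ‖y‖ < ρ → Wm (tl ρ (2 - n)) a y = fun _ _ => 0 := fun y k => by
    have : tl ρ (2 - n) =ᶠ[𝓝 y] fun _ => 0 := ((isOpen_lt continuous_norm
      continuous_const).eventually_mem k).mono fun w k => tl_in (le_of_lt k)
    funext i j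
    simp [Wm, P366Z.pd_congr this, P366Z.pd_const]
  obtain ⟨i, e⟩ := C.id_M hR Q H G A z (var_mom hR Q.n3 A hq s (sym_kT C.R (sy_im A.met s)
    (im_zero z)) J R fun j => (lap_tl C.pos (2 - n) 1).mono fun y k => by
      simp only [one_mul] at k
      rw [dv_Wm (sm_tl C.pos _), k]; ring)
  rw [lim_of (by linarith [Q.n3]) i (rad_Vm A oX J R) ((eventually_gt_atTop 0).mono fun r k => ?_)] at e
  · have w := P366Z.omega_pos (n := n) (by linarith [Q.n3])
    have n1 : (n - 1 : ℝ) ≠ 0 := by linarith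
    refine mul_left_cancel₀ (show (n - 2) * omega n ≠ 0 from (mul_pos (by linarith) w).ne') ?_
    simp [dm, dl, ite_div] at e
    field_simp at e ⊢
    linear_combination -e
  have s' : Sy fun y i j => P366Z.cut r y * Wm (tl ρ (2 - n)) a y i j :=
    ⟨fun i j => ContDiff.mul (P366Z.sm_cut r) (s.sm i j), fun y i j => by rw [s.sy y i j]⟩
  have z' : ∀ y : E n, ‖y‖ < ρ → (fun i j => P366Z.cut r y * Wm (tl ρ (2 - n)) a y i j) =
      fun _ _ => 0 := fun y k => by simp only [z y k, mul_zero]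
  obtain ⟨i', e'⟩ := C.id_M hR Q H G A z' (var_cpt sym_zero (sym_kT C.R (sy_im A.met s')
    (im_zero z')) (R := 2 * r) (fun x m => ⟨rfl, by
      funext i j; simp [im, Stmt.tr, P366Z.cut_zero k m]⟩) ε)
  have i1 : Integrable fun y => P366Z.cut r y * Lm (gE D) (kE D) NE XE (Wm (tl ρ (2 - n)) a) y :=
    i.bdd_mul (c := 1) (P366Z.sm_cut r).continuous.aestronglyMeasurable (.of_forall fun y => by
      rw [Real.norm_of_nonneg (P366Z.cut_nonneg r y)]; exact P366Z.cut_le_one r y)
  rw [funext (lm_mul A.met s.sm (P366Z.sm_cut r))] at i'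
  rw [← integral_add i1 ((i'.sub i1).congr (.of_forall fun y => add_sub_cancel_left ..))]
  simpa [lm_mul A.met s.sm (P366Z.sm_cut r), dm] using e'

end Fc

end Vale.Agent.P366K3
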